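import Mathlib

/-! Definitions for the operator form of the question. -/

namespace Vale.Agent.P125

/-- Displacement of `T ∘ f` along stationary reversible finite chains is sublinear in mean square. -/
def SublinearMarkov {E F : Type} [NormedAddCommGroup E] [NormedSpace ℝ E]
    [NormedAddCommGroup F] [NormedSpace ℝ F] (T : E →L[ℝ] F) : Prop :=
  ∃ K α : ℝ, α < 2 ∧
    ∀ (S : Type) [Fintype S] [DecidableEq S] (w : S → ℝ) (P : Matrix S S ℝ) (f : S → E) (t : ℕ),
      (∀ i, 0 ≤ w i) → (∀ i j, 0 ≤ P i j) → (∀ i, ∑ j, P i j = 1) →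
      (∀ i j, w i * P i j = w j * P j i) → 1 ≤ t →
      ∑ i, w i * ∑ j, (P ^ t) i j * ‖T (f j) - T (f i)‖ ^ 2
        ≤ K * (t : ℝ) ^ α * ∑ i, w i * ∑ j, P i j * ‖f j - f i‖ ^ 2

/-- `T` is a composition of bounded operators through a uniformly convex normed space. -/
def FactorsUniformlyConvex {E F : Type} [NormedAddCommGroup E] [NormedSpace ℝ E]
    [NormedAddCommGroup F] [NormedSpace ℝ F] (T : E →L[ℝ] F) : Prop :=
  ∃ (X : Type) (i₁ : NormedAddCommGroup X) (i₂ : NormedSpace ℝ X) (_ : UniformConvexSpace X)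
    (A : E →L[ℝ] X) (B : X →L[ℝ] F), B.comp A = T

end Vale.Agent.P125
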