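import Vale.Agent.P125.Key

/-! Sublinear displacement of prefix sums. -/

namespace Vale.Agent.P125

open Finset

namespace Chain

variable {S : Type*} [Fintype S] [DecidableEq S] (C : Chain S) (M : ℕ) (f : S → ℕ → ℝ)

noncomputable def Vf (y z : S) : ℝ := tvar M (fun r => f z r - f y r)

noncomputable def Bf (y : S) : ℝ := C.step (fun z => Vf M f y z) y

noncomputable def cf (g : ℕ) (y : S) (r : ℕ) : ℝ :=
  C.op g (fun u => C.step (fun z => f z r) u - f u r) y

noncomputable def nuE (y z : S) (r : ℕ) : ℝ :=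
  nu M (fun i => |(f z (i+1) - f y (i+1)) - (f z i - f y i)|) r

noncomputable def nuB (y : S) (r : ℕ) : ℝ := C.step (fun z => nuE M f y z r) y

noncomputable def nuH (y : S) (r : ℕ) : ℝ := nuB C M f y r / (2 * Bf C M f y)

noncomputable def wi (i : ℕ) (y : S) (r : ℕ) : ℝ := C.op i (fun u => nuH C M f u r) y

noncomputable def absdev (k : ℕ) (y : S) (r : ℕ) : ℝ :=
  C.op k (fun x => |f x r - f y r|) y

noncomputable def sqdev (k : ℕ) (y : S) (r : ℕ) : ℝ :=
  C.op k (fun x => (f x r - f y r) ^ 2) y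

lemma Vf_nonneg (y z : S) : 0 ≤ Vf M f y z := tvar_nonneg _ _

lemma Vf_symm (y z : S) : Vf M f y z = Vf M f z y := by
  simp only [Vf, tvar]
  refine sum_congr rfl fun i _ => ?_
  rw [← abs_neg]; ring_nf

lemma Bf_nonneg (y : S) : 0 ≤ Bf C M f y :=
  sum_nonneg fun z _ => mul_nonneg (C.P_nonneg y z) (Vf_nonneg M f y z)

lemma Bf_sq : C.ex (fun y => Bf C M f y ^ 2) ≤ C.cost M f :=
  C.ex_mono fun y => C.step_sq_le _ y

lemma opB_sq (g : ℕ) : C.ex (fun y => C.op g (Bf C M f) y ^ 2) ≤ C.cost M f :=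
  (C.ex_mono fun y => C.op_sq_le g _ y).trans ((C.ex_op g _).le.trans (Bf_sq C M f))

lemma nuE_nonneg (y z : S) (r : ℕ) : 0 ≤ nuE M f y z r := by
  unfold nuE nu; split_ifs <;> positivity

lemma nuE_symm (y z : S) (r : ℕ) : nuE M f y z r = nuE M f z y r := by
  unfold nuE; congr 1; funext i; rw [← abs_neg]; ring_nf

lemma nuE_sum (y z : S) : ∑ r ∈ range (M+1), nuE M f y z r = 2 * Vf M f y z := by
  have h := nu_sum M (fun i => |(f z (i+1) - f y (i+1)) - (f z i - f y i)|) (fun _ => 1)
  simp only [mul_one] at h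
  rw [show ∑ r ∈ range (M+1), nuE M f y z r = _ from h]
  simp only [Vf, tvar, mul_sum]
  exact sum_congr rfl fun i _ => by ring

lemma nuB_nonneg (y : S) (r : ℕ) : 0 ≤ nuB C M f y r :=
  sum_nonneg fun z _ => mul_nonneg (C.P_nonneg y z) (nuE_nonneg M f y z r)

lemma nuB_sum (y : S) : ∑ r ∈ range (M+1), nuB C M f y r = 2 * Bf C M f y := by
  simp only [nuB, Bf, step, mul_sum]
  rw [sum_comm]
  refine sum_congr rfl fun z _ => ?_
  rw [← mul_sum, nuE_sum]; ring

lemma nuH_nonneg (y : S) (r : ℕ) : 0 ≤ nuH C M f y r :=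
  div_nonneg (nuB_nonneg C M f y r) (mul_nonneg zero_le_two (Bf_nonneg C M f y))

lemma nuH_mass (y : S) : ∑ r ∈ range (M+1), nuH C M f y r ≤ 1 := by
  simp only [nuH, ← sum_div, nuB_sum]; exact div_self_le_one _

lemma nuB_eq (y : S) {r : ℕ} (hr : r ∈ range (M+1)) :
    nuB C M f y r = nuH C M f y r * (2 * Bf C M f y) := by
  rcases eq_or_ne (2 * Bf C M f y) 0 with h | h
  · have h1 := single_le_sum (fun i _ => nuB_nonneg C M f y i) hr
    rw [nuB_sum, h] at h1
    have := nuB_nonneg C M f y r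
    rw [h, mul_zero]; linarith
  · rw [nuH, div_mul_cancel₀ _ h]

lemma wi_nonneg (i : ℕ) (y : S) (r : ℕ) : 0 ≤ wi C M f i y r :=
  C.op_nonneg (fun u => nuH_nonneg C M f u r) i y

lemma wi_mass (i : ℕ) (y : S) : ∑ r ∈ range (M+1), wi C M f i y r ≤ 1 := by
  simp only [wi]
  rw [← C.op_sum]
  refine (C.op_mono (g := fun _ => 1) (fun u => nuH_mass C M f u) i y).trans_eq ?_
  rw [C.op_const]

variable (hf : ∀ y, f y 0 = 0)
include hf

lemma abs_d_le (y z : S) {r : ℕ} (hr : r ∈ range (M+1)) : |f z r - f y r| ≤ Vf M f y z :=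
  abs_le_tvar M (fun r => f z r - f y r) (by simp [hf]) (by simp at hr; omega)

lemma abs_b_le (y : S) {r : ℕ} (hr : r ∈ range (M+1)) :
    |C.step (fun z => f z r) y - f y r| ≤ Bf C M f y := by
  have e : C.step (fun z => f z r) y - f y r = C.step (fun z => f z r - f y r) y := by
    rw [C.step_sub, C.step_const]
  rw [e]
  refine (abs_sum_le_sum_abs _ _).trans (sum_le_sum fun z _ => ?_)
  rw [abs_mul, abs_of_nonneg (C.P_nonneg y z)]
  exact mul_le_mul_of_nonneg_left (abs_d_le M f hf y z hr) (C.P_nonneg y z)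

lemma abs_cf_le (g : ℕ) (y : S) {r : ℕ} (hr : r ∈ range (M+1)) :
    |cf C f g y r| ≤ C.op g (Bf C M f) y :=
  (C.abs_op_le g _ y).trans (C.op_mono (fun u => abs_b_le C M f hf u hr) g y)

omit hf in
lemma sumB_sq (s : Finset ℕ) : C.ex (fun y => (∑ g ∈ s, C.op g (Bf C M f) y) ^ 2)
    ≤ (#s : ℝ) ^ 2 * C.cost M f := by
  refine (C.ex_mono fun y => sq_sum_le_card_mul_sum_sq).trans ?_
  rw [C.ex_mul, C.ex_sum, sq, mul_assoc]
  refine mul_le_mul_of_nonneg_left ?_ (Nat.cast_nonneg _)
  refine (sum_le_sum fun g _ => opB_sq C M f g).trans ?_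
  simp

/-- crude bound on the drift -/
lemma drift_crude (i : ℕ) (s : Finset ℕ) (L : ℝ) (hL : 0 < L) (hs : (#s : ℝ) ≤ L) :
    |C.drift M f (wi C M f i) (fun y r => ∑ g ∈ s, cf C f g y r)| ≤ L * C.cost M f := by
  rw [drift, ← C.ee_sum]
  refine (C.abs_ee_le _).trans ?_
  set Cb := fun z => ∑ g ∈ s, C.op g (Bf C M f) z with hCb
  refine (C.ee_mono (G := fun y z => L/2 * Vf M f y z ^ 2 + (2*L)⁻¹ * Cb z ^ 2)
    fun y z => ?_).trans ?_
  · refine (abs_sum_le_sum_abs _ _).trans ?_
    have : ∀ r ∈ range (M+1), |(f z r - f y r) * (wi C M f i y r * ∑ g ∈ s, cf C f g z r)|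
        ≤ wi C M f i y r * (L/2 * Vf M f y z ^ 2 + (2*L)⁻¹ * Cb z ^ 2) := by
      intro r hr
      rw [abs_mul, abs_mul, abs_of_nonneg (wi_nonneg C M f i y r)]
      have h1 : |∑ g ∈ s, cf C f g z r| ≤ Cb z :=
        (abs_sum_le_sum_abs _ _).trans (sum_le_sum fun g _ => abs_cf_le C M f hf g z hr)
      have h2 : |f z r - f y r| * |∑ g ∈ s, cf C f g z r|
          ≤ L/2 * Vf M f y z ^ 2 + (2*L)⁻¹ * Cb z ^ 2 := by
        refine (mul_le_mul (abs_d_le M f hf y z hr) h1 (abs_nonneg _) (Vf_nonneg M f y z)).trans ?_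
        have h0 : 0 ≤ (2*L)⁻¹ * (L * Vf M f y z - Cb z) ^ 2 := by positivity
        have : (2*L)⁻¹ * (L * Vf M f y z - Cb z) ^ 2
            = L/2 * Vf M f y z ^ 2 - Vf M f y z * Cb z + (2*L)⁻¹ * Cb z ^ 2 := by
          field_simp; ring
        linarith
      linarith [mul_le_mul_of_nonneg_left h2 (wi_nonneg C M f i y r)]
    refine (sum_le_sum this).trans ?_
    rw [← sum_mul]
    exact mul_le_of_le_one_left (by positivity) (wi_mass C M f i y)
  · rw [C.ee_add, C.ee_mul, C.ee_mul, C.ee_snd (fun z => Cb z ^ 2)]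
    have h1 := mul_le_mul_of_nonneg_left ((sumB_sq C M f s).trans
      (mul_le_mul_of_nonneg_right (pow_le_pow_left₀ (Nat.cast_nonneg _) hs 2) (C.cost_nonneg M f)))
      (inv_nonneg.mpr (mul_nonneg zero_le_two hL.le))
    have h2 : (2*L)⁻¹ * (L^2 * C.cost M f) = L/2 * C.cost M f := by field_simp
    have h3 : C.ee (fun y z => Vf M f y z ^ 2) = C.cost M f := rfl
    rw [h3]; linarith

omit hf in
lemma drift_sum_left {ι : Type*} (s : Finset ι) (w : ι → S → ℕ → ℝ) (c : S → ℕ → ℝ) :
    C.drift M f (fun y r => ∑ e ∈ s, w e y r) c = ∑ e ∈ s, C.drift M f (w e) c := by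
  simp only [drift]
  rw [sum_comm (s := s)]
  refine sum_congr rfl fun r _ => ?_
  rw [← C.ee_sum]
  exact congrArg C.ee (funext fun y => funext fun z => by rw [sum_mul, mul_sum])

omit hf in
lemma drift_sum_right {ι : Type*} (s : Finset ι) (w : S → ℕ → ℝ) (c : ι → S → ℕ → ℝ) :
    C.drift M f w (fun y r => ∑ e ∈ s, c e y r) = ∑ e ∈ s, C.drift M f w (c e) := by
  simp only [drift]
  rw [sum_comm (s := s)]
  refine sum_congr rfl fun r _ => ?_
  rw [← C.ee_sum]
  exact congrArg C.ee (funext fun y => funext fun z => by rw [mul_sum, mul_sum])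

omit hf in
lemma drift_smul (a b : ℝ) (w c : S → ℕ → ℝ) :
    C.drift M f (fun y r => a * w y r) (fun y r => b * c y r) = a * b * C.drift M f w c := by
  simp only [drift, mul_sum]
  refine sum_congr rfl fun r _ => ?_
  rw [← C.ee_mul]
  exact congrArg C.ee (funext fun y => funext fun z => by ring)

lemma drift_shift (i τ a b : ℕ) (hτ : 0 < τ) (h1 : a ≤ b + τ) (h2 : b ≤ a + τ) :
    |C.drift M f (wi C M f i) (fun y r => ∑ g ∈ range a, cf C f g y r)
      - C.drift M f (wi C M f i) (fun y r => ∑ g ∈ range b, cf C f g y r)|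
      ≤ (τ : ℝ) * C.cost M f := by
  wlog hab : a ≤ b generalizing a b
  · rw [abs_sub_comm]; exact this b a h2 h1 (le_of_not_ge hab)
  rw [abs_sub_comm]
  have : C.drift M f (wi C M f i) (fun y r => ∑ g ∈ range b, cf C f g y r)
      - C.drift M f (wi C M f i) (fun y r => ∑ g ∈ range a, cf C f g y r)
      = C.drift M f (wi C M f i) (fun y r => ∑ g ∈ Ico a b, cf C f g y r) := by
    rw [drift_sum_right, drift_sum_right, drift_sum_right, sum_Ico_eq_sub _ hab]
  rw [this]
  refine drift_crude C M f hf i _ _ (by exact_mod_cast hτ) ?_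
  simp only [Nat.card_Ico]
  exact_mod_cast (by omega : b - a ≤ τ)

lemma drift_block (j a L : ℕ) (hj : 0 < j) (hL : j^8 ≤ L) :
    |∑ e ∈ range (j^8), C.drift M f (wi C M f (a * j^8 + e))
        (fun y r => ∑ g ∈ range L, cf C f g y r)|
      ≤ (j^8 : ℕ) * (L : ℝ) * (18 * (1 / (j:ℝ))) * C.cost M f := by
  set τ : ℕ := j^8 with hτdef
  have hτ : (0:ℝ) < τ := by exact_mod_cast pow_pos hj 8
  have hLp : (0:ℝ) < L := lt_of_lt_of_le hτ (by exact_mod_cast hL)
  set σ : ℝ := 1 / (j:ℝ) with hσdef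
  have hσ : 0 < σ := by positivity
  have hσ1 : σ ≤ 1 := by
    rw [hσdef, div_le_one (by exact_mod_cast hj)]; exact_mod_cast hj
  have hσ8 : σ ^ 8 = 1 / (τ:ℝ) := by rw [hσdef, hτdef]; push_cast; rw [div_pow, one_pow]
  set w := fun y r => ∑ e ∈ range τ, wi C M f (a * τ + e) y r with hw
  set c := fun y r => ∑ g ∈ range L, cf C f g y r with hc
  have hkey := C.key M f (fun y r => (1/(τ:ℝ)) * w y r) (fun y r => (1/(L:ℝ)) * c y r)
    (fun y => (1/(L:ℝ)) * ∑ g ∈ range L, C.op g (Bf C M f) y)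
    (fun y => (1/(L:ℝ)) * (C.op L (Bf C M f) y + Bf C M f y)) σ hσ hσ1 hf
    (fun y r => mul_nonneg (by positivity) (sum_nonneg fun e _ => wi_nonneg C M f _ y r))
    ?_ ?_ ?_ ?_ ?_ ?_
  · rw [drift_smul, hw, drift_sum_left] at hkey
    rw [abs_mul, abs_of_pos (show (0:ℝ) < 1/τ * (1/L) by positivity)] at hkey
    have := mul_le_mul_of_nonneg_left hkey (mul_nonneg hτ.le hLp.le)
    have e : (τ:ℝ) * L * (1/τ * (1/L) * |∑ e ∈ range τ, C.drift M f (wi C M f (a * τ + e)) c|)
        = |∑ e ∈ range τ, C.drift M f (wi C M f (a * τ + e)) c| := by field_simp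
    rw [e] at this
    exact this.trans_eq (by ring)
  · intro y
    rw [← mul_sum, hw, sum_comm]
    have : ∑ e ∈ range τ, ∑ r ∈ range (M+1), wi C M f (a * τ + e) y r ≤ τ := by
      refine (sum_le_sum fun e _ => wi_mass C M f _ y).trans ?_; simp
    rw [one_div, inv_mul_le_iff₀ hτ, mul_one]; exact this
  · intro y
    have e1 : ∀ r, C.step (fun z => (1/(τ:ℝ)) * w z r) y - (1/(τ:ℝ)) * w y r
        = (1/(τ:ℝ)) * (wi C M f (a*τ+τ) y r - wi C M f (a*τ) y r) := by
      intro r
      rw [C.step_mul, ← mul_sub]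
      congr 1
      have : C.step (fun z => w z r) y = ∑ e ∈ range τ, wi C M f (a*τ+(e+1)) y r := by
        simp only [hw, wi, ← add_assoc, C.op_succ']
        simp only [step, mul_sum]; exact sum_comm
      rw [this, hw, ← sum_sub_distrib, sum_range_sub (fun e => wi C M f (a*τ+e) y r)]
      rfl
    simp only [e1, abs_mul, ← mul_sum]
    rw [abs_of_pos (by positivity : (0:ℝ) < 1/τ), hσ8]
    have : ∑ r ∈ range (M+1), |wi C M f (a*τ+τ) y r - wi C M f (a*τ) y r| ≤ 2 := by
      refine (sum_le_sum fun r _ => abs_sub _ _).trans ?_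
      rw [sum_add_distrib]
      simp only [abs_of_nonneg (wi_nonneg C M f _ y _)]
      linarith [wi_mass C M f (a*τ+τ) y, wi_mass C M f (a*τ) y]
    linarith [mul_le_mul_of_nonneg_left this (by positivity : (0:ℝ) ≤ 1/τ)]
  · intro y r hr
    rw [abs_mul, abs_of_pos (by positivity : (0:ℝ) < 1/L)]
    exact mul_le_mul_of_nonneg_left ((abs_sum_le_sum_abs _ _).trans
      (sum_le_sum fun g _ => abs_cf_le C M f hf g y hr)) (by positivity)
  · intro y r hr
    have e1 : C.step (fun z => (1/(L:ℝ)) * c z r) y - (1/(L:ℝ)) * c y r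
        = (1/(L:ℝ)) * (cf C f L y r - cf C f 0 y r) := by
      rw [C.step_mul, ← mul_sub]
      congr 1
      have : C.step (fun z => c z r) y = ∑ g ∈ range L, cf C f (g+1) y r := by
        simp only [hc, cf, C.op_succ']
        simp only [step, mul_sum]; exact sum_comm
      rw [this, hc, ← sum_sub_distrib, sum_range_sub (fun g => cf C f g y r)]
    rw [e1, abs_mul, abs_of_pos (by positivity : (0:ℝ) < 1/L)]
    refine mul_le_mul_of_nonneg_left ((abs_sub _ _).trans (add_le_add
      (abs_cf_le C M f hf L y hr) ((abs_cf_le C M f hf 0 y hr).trans_eq ?_))) (by positivity)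
    rw [C.op_zero]
  · simp only [mul_pow]
    rw [C.ex_mul]
    have := mul_le_mul_of_nonneg_left (sumB_sq C M f (range L)) (sq_nonneg (1/(L:ℝ)))
    refine this.trans_eq ?_
    rw [card_range]; field_simp
  · simp only [mul_pow]
    rw [C.ex_mul]
    have h1 : C.ex (fun y => (C.op L (Bf C M f) y + Bf C M f y) ^ 2) ≤ 4 * C.cost M f := by
      refine (C.ex_mono (g := fun y => 2 * C.op L (Bf C M f) y ^ 2 + 2 * Bf C M f y ^ 2)
        fun y => by nlinarith [sq_nonneg (C.op L (Bf C M f) y - Bf C M f y)]).trans ?_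
      rw [C.ex_add, C.ex_mul, C.ex_mul]
      linarith [opB_sq C M f L, Bf_sq C M f]
    have h2 : (1/(L:ℝ))^2 ≤ σ^16 := by
      rw [show σ^16 = (σ^8)^2 by ring, hσ8]
      exact pow_le_pow_left₀ (by positivity) (one_div_le_one_div_of_le hτ (by exact_mod_cast hL)) 2
    calc (1/(L:ℝ))^2 * _ ≤ σ^16 * (4 * C.cost M f) :=
          mul_le_mul h2 h1 (sum_nonneg fun y _ => mul_nonneg (C.wt_nonneg y) (sq_nonneg _))
            (by positivity)
      _ = _ := by ring

omit hf in
lemma tri_sum (F : ℕ → ℕ → ℝ) : ∀ K : ℕ, ∑ k ∈ range K, ∑ i ∈ range k, F i (k-1-i)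
    = ∑ i ∈ range K, ∑ g ∈ range (K-1-i), F i g
  | 0 => by simp
  | K+1 => by
    rw [sum_range_succ, tri_sum F K, sum_range_succ _ K]
    simp only [show K + 1 - 1 - K = 0 by omega, range_zero, sum_empty, add_zero,
      ← sum_add_distrib]
    refine sum_congr rfl fun i hi => ?_
    have hi' := mem_range.mp hi
    rw [show K + 1 - 1 - i = (K - 1 - i) + 1 by omega, sum_range_succ]

omit hf in
lemma sqdev_eq (k : ℕ) (y : S) (r : ℕ) : sqdev C f k y r
    = C.op k (fun x => f x r ^ 2) y - 2 * f y r * C.op k (fun x => f x r) y + f y r ^ 2 := by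
  have e : (fun x => (f x r - f y r) ^ 2)
      = fun x => 1 * (1 * f x r ^ 2 + (-2 * f y r) * f x r) + 1 * f y r ^ 2 := by funext x; ring
  rw [sqdev, e, C.op_lin, C.op_lin, C.op_const]; ring

omit hf in
lemma comm_tele (k : ℕ) (h b : S → ℝ) (y : S) :
    C.op k (fun u => h u * b u) y - h y * C.op k b y
      = ∑ i ∈ range k, C.op i (fun u => C.step (fun z => (h z - h u) * C.op (k-1-i) b z) u) y := by
  have key : ∀ i ∈ range k, C.op i (fun u => C.step (fun z => (h z - h u) * C.op (k-1-i) b z) u) y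
      = C.op (i+1) (fun u => h u * C.op (k-(i+1)) b u) y
        - C.op i (fun u => h u * C.op (k-i) b u) y := by
    intro i hi
    have hi' := mem_range.mp hi
    rw [C.op_succ, show k - i = (k-(i+1)) + 1 by omega, show k - 1 - i = k - (i+1) by omega,
      C.op_succ' (k-(i+1))]
    generalize C.op (k-(i+1)) b = c
    simp only [op, ← sum_sub_distrib, ← mul_sub]
    refine sum_congr rfl fun u _ => ?_
    congr 1
    simp only [step, mul_sum, ← sum_sub_distrib]
    exact sum_congr rfl fun z _ => by ring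
  rw [sum_congr rfl key, sum_range_sub (fun i => C.op i (fun u => h u * C.op (k-i) b u) y),
    C.op_zero]
  simp [C.op_zero]

omit hf in
lemma sqdev_succ (k : ℕ) (y : S) (r : ℕ) : sqdev C f (k+1) y r - sqdev C f k y r
    = C.op k (fun u => C.step (fun z => (f z r - f u r) ^ 2) u) y
      + 2 * ∑ i ∈ range k, C.op i (fun u =>
          C.step (fun z => (f z r - f u r) * cf C f (k-1-i) z r) u) y := by
  have h := comm_tele C k (fun u => f u r) (fun u => C.step (fun z => f z r) u - f u r) y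
  simp only [cf]
  rw [← h, sqdev_eq, sqdev_eq, C.op_succ, C.op_succ]
  have eG : (fun u => C.step (fun z => (f z r - f u r) ^ 2) u)
      = fun u => 1 * (C.step (fun z => f z r ^ 2) u)
          + 1 * ((-2) * (f u r * (C.step (fun z => f z r) u - f u r)) + (-1) * f u r ^ 2) := by
    funext u
    have h1 : ∑ z, C.P u z * f u r ^ 2 = f u r ^ 2 := by rw [← sum_mul, C.P_row, one_mul]
    simp only [step]
    rw [show (fun z => C.P u z * (f z r - f u r) ^ 2) = fun z => C.P u z * f z r ^ 2
      + ((-2 * f u r) * (C.P u z * f z r) + C.P u z * f u r ^ 2) by funext z; ring]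
    rw [sum_add_distrib, sum_add_distrib, h1, ← mul_sum]
    ring
  have eb : (fun u => C.step (fun z => f z r) u - f u r)
      = fun u => 1 * C.step (fun z => f z r) u + (-1) * f u r := by funext u; ring
  have el : C.op k (fun u => C.step (fun z => f z r) u - f u r) y
      = C.op k (C.step fun z => f z r) y - C.op k (fun z => f z r) y := by
    rw [eb, C.op_lin]; ring
  rw [eG, C.op_lin, C.op_lin, el]
  ring

lemma sqdev_avg_le (K j : ℕ) (hj : 0 < j) :
    C.ex (fun y => ∑ r ∈ range (M+1), nuH C M f y r * sqdev C f K y r)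
      ≤ (5 * (j:ℝ)^8 * K + 36 * (1/(j:ℝ)) * K^2) * C.cost M f := by
  set W := C.cost M f with hWdef
  have hW : 0 ≤ W := C.cost_nonneg M f
  set τ : ℕ := j^8 with hτdef
  have hτ : 0 < τ := pow_pos hj 8
  set Q := fun K => C.ex (fun y => ∑ r ∈ range (M+1), nuH C M f y r * sqdev C f K y r) with hQ
  set G := fun k => ∑ r ∈ range (M+1),
    C.ee (fun u z => (f z r - f u r) ^ 2 * wi C M f k u r) with hG
  have hstep : ∀ k, Q (k+1) - Q k
      = G k + 2 * ∑ i ∈ range k, C.drift M f (wi C M f i) (cf C f (k-1-i)) := by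
    intro k
    have e0 : Q (k+1) - Q k = ∑ r ∈ range (M+1),
        C.ex (fun y => nuH C M f y r * (sqdev C f (k+1) y r - sqdev C f k y r)) := by
      simp only [hQ, ex, mul_sum, ← sum_sub_distrib]
      rw [sum_comm]
      exact sum_congr rfl fun r _ => sum_congr rfl fun y _ => by ring
    simp only [drift]
    rw [e0, hG, sum_comm (s := range k), mul_sum, ← sum_add_distrib]
    refine sum_congr rfl fun r _ => ?_
    have e1 : ∀ (i : ℕ) (F : S → S → ℝ),
        C.ex (fun y => nuH C M f y r * C.op i (fun u => C.step (F u) u) y)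
          = C.ee (fun u z => F u z * wi C M f i u r) := by
      intro i F
      rw [C.ex_op_mul]
      simp only [ex, ee, wi, step, mul_sum]
      exact sum_congr rfl fun u _ => sum_congr rfl fun z _ => by ring
    simp only [sqdev_succ, mul_add]
    rw [C.ex_add, e1 k (fun u z => (f z r - f u r) ^ 2)]
    congr 1
    rw [mul_sum]
    simp only [mul_sum]
    rw [C.ex_sum]
    refine sum_congr rfl fun i _ => ?_
    simp only [mul_left_comm _ (2:ℝ)]
    rw [C.ex_mul, e1 i (fun u z => (f z r - f u r) * cf C f (k-1-i) z r)]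
    congr 1
    exact congrArg C.ee (funext fun u => funext fun z => by ring)
  have hG1 : ∀ k, G k ≤ W := by
    intro k
    rw [hG]; simp only
    rw [← C.ee_sum]
    refine C.ee_mono fun u z => ?_
    refine (sum_le_sum (g := fun r => Vf M f u z ^ 2 * wi C M f k u r) fun r hr =>
      mul_le_mul_of_nonneg_right ?_ (wi_nonneg C M f k u r)).trans ?_
    · exact sq_le_sq.mpr ((abs_d_le M f hf u z hr).trans (le_abs_self _))
    · rw [← mul_sum]
      exact mul_le_of_le_one_right (sq_nonneg _) (wi_mass C M f k u)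
  have hQ0 : Q 0 = 0 := by
    simp [hQ, sqdev, C.op_zero, ex]
  set T := fun i l => C.drift M f (wi C M f i) (fun y r => ∑ g ∈ range l, cf C f g y r) with hT
  have hQK : Q K ≤ K * W + 2 * |∑ i ∈ range K, T i (K-1-i)| := by
    have h : Q K = ∑ k ∈ range K, (Q (k+1) - Q k) := by rw [sum_range_sub, hQ0, sub_zero]
    rw [h]; simp only [hstep]
    rw [sum_add_distrib, ← mul_sum, tri_sum (fun i g => C.drift M f (wi C M f i) (cf C f g))]
    have h1 : ∑ k ∈ range K, G k ≤ K * W :=
      (sum_le_sum fun k _ => hG1 k).trans (by simp)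
    have h2 : ∑ i ∈ range K, ∑ g ∈ range (K-1-i), C.drift M f (wi C M f i) (cf C f g)
        = ∑ i ∈ range K, T i (K-1-i) := by
      refine sum_congr rfl fun i _ => ?_
      rw [hT]; exact (drift_sum_right C M f _ _ _).symm
    rw [h2]
    exact add_le_add h1 (mul_le_mul_of_nonneg_left (le_abs_self _) zero_le_two)
  obtain ⟨m, e, he, hKe⟩ : ∃ m e, e < τ ∧ K = m * τ + e :=
    ⟨K / τ, K % τ, Nat.mod_lt _ hτ, by rw [mul_comm]; exact (Nat.div_add_mod K τ).symm⟩
  have hblocks : ∀ (m' : ℕ) (F : ℕ → ℝ), ∑ i ∈ range (m' * τ), F i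
      = ∑ a ∈ range m', ∑ e' ∈ range τ, F (a * τ + e') := by
    intro m' F
    induction m' with
    | zero => simp
    | succ q ih => rw [sum_range_succ, ← ih, Nat.succ_mul, sum_range_add]
  have hmain : |∑ i ∈ range K, T i (K-1-i)|
      ≤ (2 * (τ:ℝ) * K + 18 * (1/(j:ℝ)) * K^2) * W := by
    rw [show range K = range (m * τ + e) by rw [hKe], sum_range_add]
    refine (abs_add_le _ _).trans ?_
    have hA : |∑ i ∈ range (m * τ), T i (K-1-i)|
        ≤ ((τ:ℝ) * K + 18 * (1/(j:ℝ)) * K^2) * W := by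
      rw [hblocks]
      refine (abs_sum_le_sum_abs _ _).trans ?_
      refine (sum_le_sum (g := fun _ => ((τ:ℝ) * τ + τ * K * (18 * (1/(j:ℝ)))) * W)
        fun a ha => ?_).trans ?_
      · have ha' := mem_range.mp ha
        set L := (m - a) * τ with hL
        have hsplit : ∑ e' ∈ range τ, T (a * τ + e') (K-1-(a*τ+e'))
            = ∑ e' ∈ range τ, (T (a * τ + e') (K-1-(a*τ+e')) - T (a * τ + e') L)
              + ∑ e' ∈ range τ, T (a * τ + e') L := by
          rw [← sum_add_distrib]; exact sum_congr rfl fun _ _ => by ring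
        rw [hsplit, add_mul]
        refine (abs_add_le _ _).trans (add_le_add ?_ ?_)
        · refine (abs_sum_le_sum_abs _ _).trans
            ((sum_le_sum (g := fun _ => (τ:ℝ) * W) fun e' he' => ?_).trans ?_)
          · have he2 := mem_range.mp he'
            have hm : m * τ = a * τ + L := by rw [hL, ← add_mul]; congr 1; omega
            exact drift_shift C M f hf _ τ _ _ hτ (by omega) (by omega)
          · simp; rw [mul_assoc]
        · have hLτ : τ ≤ L := by
            rw [hL]; exact Nat.le_mul_of_pos_left _ (by omega)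
          refine (drift_block C M f hf j a L hj hLτ).trans ?_
          have hLK : L ≤ K := by
            rw [hL, hKe]
            exact (Nat.mul_le_mul_right _ (Nat.sub_le m a)).trans (Nat.le_add_right _ _)
          refine mul_le_mul_of_nonneg_right ?_ hW
          refine mul_le_mul_of_nonneg_right ?_ (by positivity)
          exact mul_le_mul_of_nonneg_left (by exact_mod_cast hLK) (by positivity)
      · simp only [sum_const, card_range, nsmul_eq_mul]
        have hmK : (m:ℝ) * τ ≤ K := by exact_mod_cast (by omega : m * τ ≤ K)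
        have h0 : 0 ≤ (τ:ℝ) + K * (18 * (1/(j:ℝ))) := by positivity
        have := mul_le_mul_of_nonneg_right (mul_le_mul_of_nonneg_right hmK h0) hW
        linarith
    have hB : |∑ x ∈ range e, T (m * τ + x) (K-1-(m*τ+x))| ≤ (τ:ℝ) * K * W := by
      refine (abs_sum_le_sum_abs _ _).trans
        ((sum_le_sum (g := fun _ => (K:ℝ) * W) fun x hx => ?_).trans ?_)
      · have hx' := mem_range.mp hx
        have hK0 : (0:ℝ) < K := by exact_mod_cast (by omega : 0 < K)
        refine drift_crude C M f hf _ _ _ hK0 ?_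
        rw [card_range]; exact_mod_cast (by omega : K - 1 - (m*τ+x) ≤ K)
      · simp only [sum_const, card_range, nsmul_eq_mul]
        rw [mul_assoc (τ:ℝ)]
        exact mul_le_mul_of_nonneg_right (by exact_mod_cast he.le) (by positivity)
    linarith
  have hτr : (τ:ℝ) = (j:ℝ)^8 := by rw [hτdef]; push_cast; rfl
  have hKτ : (K:ℝ) * W ≤ (τ:ℝ) * K * W := by
    refine mul_le_mul_of_nonneg_right ?_ hW
    exact le_mul_of_one_le_left (Nat.cast_nonneg _) (by exact_mod_cast hτ)
  change Q K ≤ _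
  rw [← hτr]
  linarith

/-- mean absolute deviation against the variation weight -/
lemma absdev_avg_le (k n j : ℕ) (hj : 0 < j) (hn : 0 < n) (hk : k ≤ n) (ρ : ℝ) (hρ : 0 < ρ)
    (hq : 5 * (j:ℝ)^8 / n + 36 * (1/(j:ℝ)) ≤ ρ^2) :
    C.ex (fun y => ∑ r ∈ range (M+1), nuB C M f y r * absdev C f k y r)
      ≤ 2 * n * ρ * C.cost M f := by
  have hn' : (0:ℝ) < n := by exact_mod_cast hn
  set a : ℝ := n * ρ with ha
  have ha0 : 0 < a := by positivity
  refine (C.ex_mono (g := fun y => a * Bf C M f y ^ 2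
    + a⁻¹ * ∑ r ∈ range (M+1), nuH C M f y r * sqdev C f k y r) fun y => ?_).trans ?_
  · have hpt : ∀ r ∈ range (M+1), nuB C M f y r * absdev C f k y r
        ≤ nuH C M f y r * (a * Bf C M f y ^ 2) + a⁻¹ * (nuH C M f y r * sqdev C f k y r) := by
      intro r hr
      rw [nuB_eq C M f y hr]
      have h1 : absdev C f k y r ^ 2 ≤ sqdev C f k y r :=
        (C.op_sq_le k _ y).trans_eq (by simp [sqdev, sq_abs])
      have h0 : 0 ≤ a⁻¹ * (a * Bf C M f y - absdev C f k y r) ^ 2 := by positivity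
      have h2 : a⁻¹ * (a * Bf C M f y - absdev C f k y r) ^ 2
          = a * Bf C M f y ^ 2 - 2 * Bf C M f y * absdev C f k y r
            + a⁻¹ * absdev C f k y r ^ 2 := by field_simp; ring
      have h3 : 2 * Bf C M f y * absdev C f k y r
          ≤ a * Bf C M f y ^ 2 + a⁻¹ * sqdev C f k y r := by
        have := mul_le_mul_of_nonneg_left h1 (inv_nonneg.mpr ha0.le)
        linarith
      linarith [mul_le_mul_of_nonneg_left h3 (nuH_nonneg C M f y r)]
    refine (sum_le_sum hpt).trans ?_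
    rw [sum_add_distrib, ← sum_mul, ← mul_sum]
    exact add_le_add (mul_le_of_le_one_left (by positivity) (nuH_mass C M f y)) le_rfl
  · rw [C.ex_add, C.ex_mul, C.ex_mul]
    have h1 := mul_le_mul_of_nonneg_left (Bf_sq C M f) ha0.le
    have h2 : C.ex (fun y => ∑ r ∈ range (M+1), nuH C M f y r * sqdev C f k y r)
        ≤ (n * ρ)^2 * C.cost M f := by
      refine (sqdev_avg_le C M f hf k j hj).trans (mul_le_mul_of_nonneg_right ?_ (C.cost_nonneg M f))
      have hk' : (k:ℝ) ≤ n := by exact_mod_cast hk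
      calc 5 * (j:ℝ)^8 * k + 36 * (1/(j:ℝ)) * k^2
          ≤ 5 * (j:ℝ)^8 * n + 36 * (1/(j:ℝ)) * n^2 := by gcongr
        _ = (n:ℝ)^2 * (5 * (j:ℝ)^8 / n + 36 * (1/(j:ℝ))) := by field_simp
        _ ≤ (n:ℝ)^2 * ρ^2 := by gcongr
        _ = _ := by ring
    have h3 := mul_le_mul_of_nonneg_left h2 (inv_nonneg.mpr ha0.le)
    have h4 : a⁻¹ * ((n * ρ)^2 * C.cost M f) = a * C.cost M f := by rw [ha]; field_simp
    have h5 : a * C.cost M f = n * ρ * C.cost M f := by rw [ha]
    linarith

theorem displacement (n j : ℕ) (hj : 0 < j) (hn : 0 < n) (ρ : ℝ) (hρ : 0 < ρ)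
    (hq : 5 * (j:ℝ)^8 / n + 36 * (1/(j:ℝ)) ≤ ρ^2) :
    C.ex (fun x => C.op n (fun w =>
        (range (M+1)).sup' ⟨0, by simp⟩ (fun r => (f w r - f x r) ^ 2)) x)
      ≤ (4 * n * ρ + 2) * n * C.cost M f := by
  set R := range (M+1) with hR
  set D := fun x w i => |(f w (i+1) - f x (i+1)) - (f w i - f x i)| with hD
  -- pointwise bound in the two endpoints
  have h1 : ∀ x, C.op n (fun w => R.sup' ⟨0, by simp [hR]⟩ (fun r => (f w r - f x r) ^ 2)) x
      ≤ ∑ j' ∈ range n, C.op j' (fun y => C.step (fun z => ∑ r ∈ R, nuE M f y z r *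
          (|f y r - f x r| + |f z r - f y r| + absdev C f (n-1-j') z r)) y) x := by
    intro x
    refine (C.op_mono (g := fun w => ∑ i ∈ range M, D x w i *
      (|f w (i+1) - f x (i+1)| + |f w i - f x i|)) (fun w => ?_) n x).trans ?_
    · refine Finset.sup'_le _ _ fun r hr => ?_
      exact sq_bound M (fun r => f w r - f x r) (by simp [hf]) (by simp [hR] at hr; omega)
    rw [C.op_sum]
    have h2 : ∀ i s, C.op n (fun w => D x w i * |f w s - f x s|) x
        ≤ ∑ j' ∈ range n, C.op j' (fun y => C.step (fun z => D y z i *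
          (|f y s - f x s| + |f z s - f y s| + absdev C f (n-1-j') z s)) y) x := by
      intro i s
      have hh : (fun w => D x w i * |f w s - f x s|)
          = fun w => |(f w (i+1) - f w i) - (f x (i+1) - f x i)| * |f w s - f x s| := by
        funext w; simp only [hD]; ring_nf
      rw [hh]
      refine (C.tri_chain (fun u => f u (i+1) - f u i) x n (fun w => |f w s - f x s|)
        (fun w => abs_nonneg _)).trans (sum_le_sum fun j' _ => C.op_mono (fun y =>
          C.step_mono (fun z => ?_) y) _ _)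
      have e : D y z i = |(f z (i+1) - f z i) - (f y (i+1) - f y i)| := by
        simp only [hD]; ring_nf
      rw [e]
      refine mul_le_mul_of_nonneg_left ?_ (abs_nonneg _)
      refine (C.op_mono (g := fun w => 1 * (|f y s - f x s| + |f z s - f y s|)
        + 1 * |f w s - f z s|) (fun w => ?_) _ z).trans ?_
      · rw [one_mul, one_mul]
        exact (abs_sub_le (f w s) (f z s) (f x s)).trans
          (by linarith [abs_sub_le (f z s) (f y s) (f x s)])
      · rw [C.op_lin, C.op_const, absdev, one_mul, one_mul]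
    have hsplit : ∀ i, C.op n (fun w => D x w i * (|f w (i+1) - f x (i+1)| + |f w i - f x i|)) x
        = C.op n (fun w => D x w i * |f w (i+1) - f x (i+1)|) x
          + C.op n (fun w => D x w i * |f w i - f x i|) x := by
      intro i
      simp only [op, mul_add, sum_add_distrib]
    simp only [hsplit]
    refine (sum_le_sum fun i _ => add_le_add (h2 i (i+1)) (h2 i i)).trans_eq ?_
    simp only [← sum_add_distrib]
    rw [sum_comm]
    refine sum_congr rfl fun j' _ => ?_
    simp only [nuE, hR, nu_sum]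
    simp only [op, step, mul_sum, ← sum_add_distrib]
    rw [sum_comm]
    refine sum_congr rfl fun y _ => ?_
    rw [sum_comm]
    exact sum_congr rfl fun z _ => sum_congr rfl fun i _ => by simp only [hD]; ring
  refine (C.ex_mono h1).trans ?_
  rw [C.ex_sum]
  refine (sum_le_sum (g := fun _ => (4 * n * ρ + 2) * C.cost M f) fun j' hj' => ?_).trans_eq
    (by rw [sum_const, card_range, nsmul_eq_mul]; ring)
  have hj'' := mem_range.mp hj'
  set U := fun y x => ∑ r ∈ R, nuB C M f y r * |f y r - f x r| with hU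
  set Z := fun y => C.step (fun z => (∑ r ∈ R, nuE M f y z r * |f z r - f y r|)
    + ∑ r ∈ R, nuE M f y z r * absdev C f (n-1-j') z r) y with hZ
  have e3 : ∀ x, C.op j' (fun y => C.step (fun z => ∑ r ∈ R, nuE M f y z r *
      (|f y r - f x r| + |f z r - f y r| + absdev C f (n-1-j') z r)) y) x
      = C.op j' (fun y => U y x) x + C.op j' Z x := by
    intro x
    simp only [op, ← sum_add_distrib, ← mul_add]
    refine sum_congr rfl fun y _ => ?_
    congr 1
    simp only [hU, hZ, nuB, step, sum_mul, mul_sum, mul_add, sum_add_distrib]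
    rw [sum_comm (s := R)]
    simp only [mul_assoc]
    ring
  simp only [e3]
  rw [C.ex_add]
  have hU1 : C.ex (fun x => C.op j' (fun y => U y x) x) ≤ 2 * n * ρ * C.cost M f := by
    refine le_of_eq_of_le ?_ (absdev_avg_le C M f hf j' n j hj hn hj''.le ρ hρ hq)
    simp only [ex, op, hU, absdev, hR, mul_sum]
    rw [sum_comm]
    refine sum_congr rfl fun y _ => ?_
    rw [sum_comm]
    refine sum_congr rfl fun r _ => sum_congr rfl fun x _ => ?_
    rw [abs_sub_comm (f y r)]
    linear_combination (nuB C M f y r * |f x r - f y r|) * C.pow_rev j' x y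
  have hZ1 : C.ex (fun x => C.op j' Z x) ≤ (2 + 2 * n * ρ) * C.cost M f := by
    rw [C.ex_op]
    have e4 : C.ex Z = C.ee (fun y z => ∑ r ∈ R, nuE M f y z r * |f z r - f y r|)
        + C.ee (fun y z => ∑ r ∈ R, nuE M f y z r * absdev C f (n-1-j') z r) := by
      rw [← C.ee_add]; rfl
    rw [e4, add_mul]
    refine add_le_add ?_ ?_
    · refine (C.ee_mono (G := fun y z => 2 * Vf M f y z ^ 2) fun y z => ?_).trans_eq
        (by rw [C.ee_mul]; rfl)
      calc ∑ r ∈ R, nuE M f y z r * |f z r - f y r|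
          ≤ ∑ r ∈ R, nuE M f y z r * Vf M f y z := sum_le_sum fun r hr =>
            mul_le_mul_of_nonneg_left (abs_d_le M f hf y z hr) (nuE_nonneg M f y z r)
        _ = _ := by rw [← sum_mul, hR, nuE_sum]; ring
    · rw [C.ee_symm]
      refine le_of_eq_of_le ?_
        (absdev_avg_le C M f hf (n-1-j') n j hj hn (by omega) ρ hρ hq)
      simp only [nuE_symm M f _ , ee, ex, nuB, step, hR, mul_sum, sum_mul]
      refine sum_congr rfl fun y _ => ?_
      rw [sum_comm]
      refine sum_congr rfl fun r _ => sum_congr rfl fun z _ => ?_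
      ring
  linarith

end Chain

end Vale.Agent.P125
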