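import Vale.Agent.P125.Kernel

/-! The energy lemma and the key drift estimate for the summing norm. -/

namespace Vale.Agent.P125

open Finset

def tvar (M : ℕ) (F : ℕ → ℝ) : ℝ := ∑ i ∈ range M, |F (i+1) - F i|

def nu (M : ℕ) (a : ℕ → ℝ) (r : ℕ) : ℝ :=
  (if r < M then a r else 0) + (if 0 < r then a (r - 1) else 0)

lemma tvar_nonneg (M : ℕ) (F : ℕ → ℝ) : 0 ≤ tvar M F := sum_nonneg fun _ _ => abs_nonneg _

lemma nu_sum (M : ℕ) (a g : ℕ → ℝ) :
    ∑ r ∈ range (M+1), nu M a r * g r = ∑ i ∈ range M, a i * (g (i+1) + g i) := by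
  simp only [nu, add_mul, sum_add_distrib, mul_add]
  rw [add_comm (∑ i ∈ range M, a i * g (i+1))]
  congr 1
  · rw [sum_range_succ]
    simp only [lt_irrefl, ite_false, zero_mul, add_zero]
    exact sum_congr rfl fun r hr => by rw [if_pos (mem_range.mp hr)]
  · rw [sum_range_succ']
    simp

lemma abs_le_tvar (M : ℕ) (F : ℕ → ℝ) (h0 : F 0 = 0) {r : ℕ} (hr : r ≤ M) :
    |F r| ≤ tvar M F := by
  have h : F r = ∑ i ∈ range r, (F (i+1) - F i) := by rw [sum_range_sub F, h0, sub_zero]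
  rw [h]
  exact (abs_sum_le_sum_abs _ _).trans
    (sum_le_sum_of_subset_of_nonneg (range_subset_range.mpr hr) fun _ _ _ => abs_nonneg _)

lemma sq_bound (M : ℕ) (F : ℕ → ℝ) (h0 : F 0 = 0) {r : ℕ} (hr : r ≤ M) :
    F r ^ 2 ≤ ∑ i ∈ range M, |F (i+1) - F i| * (|F (i+1)| + |F i|) := by
  have h : F r ^ 2 = ∑ i ∈ range r, (F (i+1) ^ 2 - F i ^ 2) := by
    rw [sum_range_sub (fun i => F i ^ 2), h0]; ring
  rw [h]
  refine (sum_le_sum fun i _ => ?_).trans
    (sum_le_sum_of_subset_of_nonneg (range_subset_range.mpr hr) fun _ _ _ => by positivity)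
  calc F (i+1) ^ 2 - F i ^ 2 ≤ |F (i+1) ^ 2 - F i ^ 2| := le_abs_self _
    _ = |F (i+1) - F i| * |F (i+1) + F i| := by rw [← abs_mul]; ring_nf
    _ ≤ _ := by gcongr; exact abs_add_le _ _

/-- suffix sums -/
def suf (M : ℕ) (g : ℕ → ℝ) (i : ℕ) : ℝ := ∑ r ∈ Ioc i M, g r

lemma suf_top (M : ℕ) (g : ℕ → ℝ) {i : ℕ} (h : M ≤ i) : suf M g i = 0 := by
  simp [suf, Ioc_eq_empty_of_le h]

lemma suf_succ (M : ℕ) (g : ℕ → ℝ) {i : ℕ} (h : i < M) :
    suf M g i = g (i+1) + suf M g (i+1) := by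
  have e : Ioc i M = insert (i+1) (Ioc (i+1) M) := by ext a; simp; omega
  rw [suf, e, sum_insert (by simp)]; rfl

lemma abs_suf (M : ℕ) (g : ℕ → ℝ) (i : ℕ) : |suf M g i| ≤ ∑ r ∈ range (M+1), |g r| := by
  refine (abs_sum_le_sum_abs _ _).trans
    (sum_le_sum_of_subset_of_nonneg ?_ fun _ _ _ => abs_nonneg _)
  intro a ha; simp at ha ⊢; omega

lemma abel (M : ℕ) (F g : ℕ → ℝ) (h0 : F 0 = 0) :
    ∑ r ∈ range (M+1), F r * g r = ∑ i ∈ range M, (F (i+1) - F i) * suf M g i := by
  have key : ∀ m, m ≤ M → ∑ i ∈ range m, (F (i+1) - F i) * suf M g i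
      = ∑ r ∈ range (m+1), F r * g r + F m * suf M g m := by
    intro m
    induction m with
    | zero => intro _; simp [h0]
    | succ m ih =>
      intro hm
      rw [sum_range_succ, ih (by omega), sum_range_succ _ (m+1), suf_succ M g (by omega : m < M)]
      ring
  rw [key M le_rfl, suf_top M g le_rfl]; ring

lemma suf_sq (M : ℕ) (g : ℕ → ℝ) (i : ℕ) :
    suf M g i ^ 2 ≤ ∑ r ∈ range (M+1), |g r| * (|suf M g (r-1)| + |suf M g r|) := by
  rcases le_or_gt M i with h | h
  · rw [suf_top M g h]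
    have : (0:ℝ) ≤ ∑ r ∈ range (M+1), |g r| * (|suf M g (r-1)| + |suf M g r|) :=
      sum_nonneg fun _ _ => by positivity
    simpa using this
  · have key : ∀ k, i ≤ k → k ≤ M → suf M g i ^ 2 - suf M g k ^ 2
        ≤ ∑ r ∈ Ioc i k, |g r| * (|suf M g (r-1)| + |suf M g r|) := by
      intro k hik
      induction k, hik using Nat.le_induction with
      | base => intro _; simp
      | succ k hk ih =>
        intro hkM
        have e : Ioc i (k+1) = insert (k+1) (Ioc i k) := by ext a; simp; omega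
        rw [e, sum_insert (by simp), show k + 1 - 1 = k by omega]
        have h2 : suf M g k ^ 2 - suf M g (k+1) ^ 2
            ≤ |g (k+1)| * (|suf M g k| + |suf M g (k+1)|) := by
          have e2 : g (k+1) = suf M g k - suf M g (k+1) := by
            rw [suf_succ M g (by omega : k < M)]; ring
          rw [e2]
          refine (le_abs_self _).trans ?_
          calc |suf M g k ^ 2 - suf M g (k+1) ^ 2|
              = |suf M g k - suf M g (k+1)| * |suf M g k + suf M g (k+1)| := by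
                rw [← abs_mul]; ring_nf
            _ ≤ _ := by gcongr; exact abs_add_le _ _
        linarith [ih (by omega)]
    have := key M h.le le_rfl
    rw [suf_top M g le_rfl] at this
    refine le_trans (by linarith) (sum_le_sum_of_subset_of_nonneg ?_ fun _ _ _ => by positivity)
    intro a ha; simp at ha ⊢; omega

lemma suf_sub (M : ℕ) (g h : ℕ → ℝ) (i : ℕ) :
    suf M (fun r => g r - h r) i = suf M g i - suf M h i := by
  simp [suf, sum_sub_distrib]

lemma weighted_jensen {ι : Type*} (s : Finset ι) (w x : ι → ℝ) (hw : ∀ i ∈ s, 0 ≤ w i)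
    (h1 : ∑ i ∈ s, w i ≤ 1) : (∑ i ∈ s, w i * x i) ^ 2 ≤ ∑ i ∈ s, w i * x i ^ 2 := by
  have := Finset.sum_sq_le_sum_mul_sum_of_sq_le_mul s (r := fun i => w i * x i)
    (f := w) (g := fun i => w i * x i ^ 2) hw
    (fun i hi => mul_nonneg (hw i hi) (sq_nonneg _)) (fun i _ => le_of_eq (by ring))
  refine this.trans ?_
  exact mul_le_of_le_one_left
    (sum_nonneg fun i hi => mul_nonneg (hw i hi) (sq_nonneg _)) h1

namespace Chain

variable {S : Type*} [Fintype S] [DecidableEq S] (C : Chain S) (M : ℕ)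

/-- Dirichlet energy of a bounded almost harmonic family against an almost harmonic weight -/
theorem energy (u w : S → ℕ → ℝ) (A D : S → ℝ) (δ a : ℝ) (ha : 0 < a)
    (hu : ∀ y, ∀ r ∈ range (M+1), |u y r| ≤ A y)
    (hD : ∀ y, ∀ r ∈ range (M+1), |C.step (fun z => u z r) y - u y r| ≤ D y)
    (hw : ∀ y r, 0 ≤ w y r) (hmass : ∀ y, ∑ r ∈ range (M+1), w y r ≤ 1)
    (hδ : ∀ y, ∑ r ∈ range (M+1), |C.step (fun z => w z r) y - w y r| ≤ δ) :
    C.ee (fun y z => ∑ r ∈ range (M+1), (u z r - u y r) ^ 2 * w y r)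
      ≤ δ * C.ex (fun y => A y ^ 2) + a * C.ex (fun y => A y ^ 2)
        + a⁻¹ * C.ex (fun y => D y ^ 2) := by
  have hA : ∀ y, 0 ≤ A y := fun y => (abs_nonneg _).trans (hu y 0 (by simp))
  have e1 : ∀ y r, C.step (fun z => (u z r - u y r) ^ 2 * w y r) y
      = w y r * C.step (fun z => u z r ^ 2) y
        + (-2 * w y r * u y r * C.step (fun z => u z r) y + w y r * u y r ^ 2) := by
    intro y r
    have h1 : ∑ z, C.P y z * (w y r * u y r ^ 2) = w y r * u y r ^ 2 := by
      rw [← sum_mul, C.P_row, one_mul]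
    simp only [step]
    conv_rhs => rw [← h1]
    simp only [mul_sum, ← sum_add_distrib]
    exact sum_congr rfl fun z _ => by ring
  have e2 : C.ee (fun y z => ∑ r ∈ range (M+1), (u z r - u y r) ^ 2 * w y r)
      = ∑ r ∈ range (M+1), C.ex (fun y =>
          (C.step (fun z => w z r) y - w y r) * u y r ^ 2
          + 2 * w y r * u y r * (u y r - C.step (fun z => u z r) y)) := by
    have : C.ee (fun y z => ∑ r ∈ range (M+1), (u z r - u y r) ^ 2 * w y r)
        = ∑ r ∈ range (M+1), C.ex (fun y => C.step (fun z => (u z r - u y r) ^ 2 * w y r) y) := by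
      simp only [ee, ex, step, mul_sum]
      conv_lhs => arg 2; ext y; rw [sum_comm]
      exact sum_comm
    rw [this]
    refine sum_congr rfl fun r _ => ?_
    simp only [e1]
    rw [C.ex_add (fun y => w y r * C.step (fun z => u z r ^ 2) y),
      C.ex_step_mul (fun y => w y r) (fun z => u z r ^ 2), ← C.ex_add]
    exact congrArg C.ex (funext fun y => by ring)
  rw [e2, ← C.ex_sum, ← C.ex_mul, ← C.ex_mul, ← C.ex_mul, ← C.ex_add, ← C.ex_add]
  refine C.ex_mono fun y => ?_
  rw [sum_add_distrib]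
  have b1 : ∑ r ∈ range (M+1), (C.step (fun z => w z r) y - w y r) * u y r ^ 2
      ≤ δ * A y ^ 2 := by
    refine (sum_le_sum fun r hr => ?_).trans
      ((sum_mul _ _ _).symm.le.trans (mul_le_mul_of_nonneg_right (hδ y) (sq_nonneg (A y))))
    have h2 : u y r ^ 2 ≤ A y ^ 2 := sq_le_sq.mpr ((hu y r hr).trans (le_abs_self _))
    exact (mul_le_mul_of_nonneg_right (le_abs_self _) (sq_nonneg _)).trans
      (mul_le_mul_of_nonneg_left h2 (abs_nonneg _))
  have b2 : ∑ r ∈ range (M+1), 2 * w y r * u y r * (u y r - C.step (fun z => u z r) y)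
      ≤ a * A y ^ 2 + a⁻¹ * D y ^ 2 := by
    have hD0 : 0 ≤ D y := (abs_nonneg _).trans (hD y 0 (by simp))
    have h3 : ∑ r ∈ range (M+1), 2 * w y r * u y r * (u y r - C.step (fun z => u z r) y)
        ≤ ∑ r ∈ range (M+1), w y r * (2 * A y * D y) := by
      refine sum_le_sum fun r hr => ?_
      have h4 : u y r * (u y r - C.step (fun z => u z r) y) ≤ A y * D y := by
        refine (le_abs_self _).trans ?_
        rw [abs_mul, abs_sub_comm]
        exact mul_le_mul (hu y r hr) (hD y r hr) (abs_nonneg _) (hA y)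
      nlinarith [mul_le_mul_of_nonneg_left h4 (hw y r)]
    refine h3.trans ?_
    rw [← sum_mul]
    refine (mul_le_of_le_one_left (by positivity [hA y]) (hmass y)).trans ?_
    have hs : 0 ≤ a⁻¹ * (a * A y - D y) ^ 2 := by positivity
    have : a⁻¹ * (a * A y - D y) ^ 2 = a * A y ^ 2 - 2 * A y * D y + a⁻¹ * D y ^ 2 := by
      field_simp; ring
    linarith
  linarith

end Chain

end Vale.Agent.P125
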