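import Mathlib

/-! Reversible kernels on a finite set: basic identities. -/

namespace Vale.Agent.P125

open Finset

structure Chain (S : Type*) [Fintype S] [DecidableEq S] where
  wt : S → ℝ
  P : Matrix S S ℝ
  wt_nonneg : ∀ i, 0 ≤ wt i
  P_nonneg : ∀ i j, 0 ≤ P i j
  P_row : ∀ i, ∑ j, P i j = 1
  rev : ∀ i j, wt i * P i j = wt j * P j i

namespace Chain

variable {S : Type*} [Fintype S] [DecidableEq S] (C : Chain S)

noncomputable def op (k : ℕ) (h : S → ℝ) (x : S) : ℝ := ∑ y, (C.P ^ k) x y * h y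

noncomputable def step (h : S → ℝ) (x : S) : ℝ := ∑ y, C.P x y * h y

noncomputable def ex (h : S → ℝ) : ℝ := ∑ y, C.wt y * h y

/-- edge expectation -/
noncomputable def ee (F : S → S → ℝ) : ℝ := ∑ y, C.wt y * ∑ z, C.P y z * F y z

lemma pow_nonneg' : ∀ (k : ℕ) (x y : S), 0 ≤ (C.P ^ k) x y
  | 0, x, y => by rw [pow_zero, Matrix.one_apply]; split_ifs <;> norm_num
  | k+1, x, y => by
      rw [pow_succ, Matrix.mul_apply]
      exact sum_nonneg fun z _ => mul_nonneg (pow_nonneg' k x z) (C.P_nonneg z y)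

lemma op_zero (h : S → ℝ) : C.op 0 h = h := by
  funext x; simp [op, Matrix.one_apply]

lemma op_one (h : S → ℝ) : C.op 1 h = C.step h := by
  funext x; simp [op, step]

lemma op_add (i j : ℕ) (h : S → ℝ) : C.op (i + j) h = C.op i (C.op j h) := by
  funext x
  simp only [op, pow_add, Matrix.mul_apply, sum_mul, mul_sum]
  rw [sum_comm]
  simp [mul_assoc]

lemma op_succ (k : ℕ) (h : S → ℝ) : C.op (k + 1) h = C.op k (C.step h) := by
  rw [op_add, op_one]

lemma op_succ' (k : ℕ) (h : S → ℝ) : C.op (k + 1) h = C.step (C.op k h) := by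
  rw [add_comm, op_add, op_one]

lemma op_const (k : ℕ) (a : ℝ) : C.op k (fun _ => a) = fun _ => a := by
  induction k with
  | zero => exact C.op_zero _
  | succ k ih =>
    rw [C.op_succ' k, ih]
    funext x
    simp [step, ← sum_mul, C.P_row]

lemma op_mono {h g : S → ℝ} (hg : ∀ y, h y ≤ g y) (k : ℕ) (x : S) :
    C.op k h x ≤ C.op k g x :=
  sum_le_sum fun y _ => mul_le_mul_of_nonneg_left (hg y) (C.pow_nonneg' k x y)

lemma step_mono {h g : S → ℝ} (hg : ∀ y, h y ≤ g y) (x : S) : C.step h x ≤ C.step g x :=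
  sum_le_sum fun y _ => mul_le_mul_of_nonneg_left (hg y) (C.P_nonneg x y)

lemma op_nonneg {h : S → ℝ} (hh : ∀ y, 0 ≤ h y) (k : ℕ) (x : S) : 0 ≤ C.op k h x :=
  sum_nonneg fun y _ => mul_nonneg (C.pow_nonneg' k x y) (hh y)

lemma op_lin (k : ℕ) (a b : ℝ) (h g : S → ℝ) (x : S) :
    C.op k (fun y => a * h y + b * g y) x = a * C.op k h x + b * C.op k g x := by
  simp only [op, mul_add, sum_add_distrib, mul_sum]
  congr 1 <;> exact sum_congr rfl fun y _ => by ring

lemma op_smul (k : ℕ) (a : ℝ) (h : S → ℝ) (x : S) :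
    C.op k (fun y => a * h y) x = a * C.op k h x := by
  simp only [op, mul_sum]
  exact sum_congr rfl fun y _ => by ring

lemma op_sum {ι : Type*} (s : Finset ι) (k : ℕ) (h : ι → S → ℝ) (x : S) :
    C.op k (fun y => ∑ i ∈ s, h i y) x = ∑ i ∈ s, C.op k (h i) x := by
  simp only [op, mul_sum]; exact sum_comm

lemma op_row (k : ℕ) (x : S) : ∑ y, (C.P ^ k) x y = 1 := by
  simpa [op] using congrFun (C.op_const k 1) x

lemma pow_rev : ∀ (k : ℕ) (x y : S), C.wt x * (C.P ^ k) x y = C.wt y * (C.P ^ k) y x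
  | 0, x, y => by
    rw [pow_zero]
    rcases eq_or_ne x y with rfl | hne
    · rfl
    · simp [Matrix.one_apply, hne, hne.symm]
  | k+1, x, y => by
    conv_lhs => rw [pow_succ, Matrix.mul_apply, mul_sum]
    conv_rhs => rw [pow_succ', Matrix.mul_apply, mul_sum]
    refine sum_congr rfl fun z _ => ?_
    linear_combination C.P z y * pow_rev k x z + (C.P ^ k) z x * C.rev z y

lemma ex_mono {h g : S → ℝ} (hg : ∀ y, h y ≤ g y) : C.ex h ≤ C.ex g :=
  sum_le_sum fun y _ => mul_le_mul_of_nonneg_left (hg y) (C.wt_nonneg y)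

lemma ee_mono {F G : S → S → ℝ} (h : ∀ y z, F y z ≤ G y z) : C.ee F ≤ C.ee G :=
  C.ex_mono fun y => C.step_mono (h y) y

lemma ee_symm (F : S → S → ℝ) : C.ee F = C.ee (fun y z => F z y) := by
  simp only [ee, mul_sum]
  rw [sum_comm]
  refine sum_congr rfl fun y _ => sum_congr rfl fun z _ => ?_
  linear_combination F z y * C.rev z y

lemma ex_op_mul (k : ℕ) (h g : S → ℝ) :
    C.ex (fun y => h y * C.op k g y) = C.ex (fun y => C.op k h y * g y) := by
  simp only [ex, op, mul_sum, sum_mul]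
  rw [sum_comm]
  refine sum_congr rfl fun y _ => sum_congr rfl fun z _ => ?_
  linear_combination h z * g y * C.pow_rev k z y

lemma ex_step_mul (h g : S → ℝ) :
    C.ex (fun y => h y * C.step g y) = C.ex (fun y => C.step h y * g y) := by
  simpa [C.op_one] using C.ex_op_mul 1 h g

lemma ex_op (k : ℕ) (g : S → ℝ) : C.ex (C.op k g) = C.ex g := by
  simpa [C.op_const k 1] using C.ex_op_mul k (fun _ => 1) g

lemma ex_step (g : S → ℝ) : C.ex (C.step g) = C.ex g := by
  simpa [C.op_one] using C.ex_op 1 g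

lemma ee_fst (g : S → ℝ) : C.ee (fun y _ => g y) = C.ex g := by
  simp [ee, ex, ← sum_mul, C.P_row]

lemma ee_snd (g : S → ℝ) : C.ee (fun _ z => g z) = C.ex g := C.ex_step g

lemma ee_add (F G : S → S → ℝ) :
    C.ee (fun y z => F y z + G y z) = C.ee F + C.ee G := by
  simp [ee, mul_add, sum_add_distrib]

lemma ee_mul (a : ℝ) (F : S → S → ℝ) : C.ee (fun y z => a * F y z) = a * C.ee F := by
  simp only [ee, mul_sum]
  exact sum_congr rfl fun y _ => sum_congr rfl fun z _ => by ring

lemma ee_sub (F G : S → S → ℝ) :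
    C.ee (fun y z => F y z - G y z) = C.ee F - C.ee G := by
  simp [ee, mul_sub, sum_sub_distrib]

lemma ex_add (h g : S → ℝ) : C.ex (fun y => h y + g y) = C.ex h + C.ex g := by
  simp [ex, mul_add, sum_add_distrib]

lemma ex_mul (a : ℝ) (h : S → ℝ) : C.ex (fun y => a * h y) = a * C.ex h := by
  simp only [ex, mul_sum]; exact sum_congr rfl fun y _ => by ring

lemma ex_sum {ι : Type*} (s : Finset ι) (h : ι → S → ℝ) :
    C.ex (fun y => ∑ i ∈ s, h i y) = ∑ i ∈ s, C.ex (h i) := by
  simp only [ex, mul_sum]; exact sum_comm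

lemma op_sq_le (k : ℕ) (h : S → ℝ) (x : S) :
    (C.op k h x) ^ 2 ≤ C.op k (fun y => h y ^ 2) x := by
  have h0 : (0 : ℝ) ≤ C.op k (fun y => (h y - C.op k h x) ^ 2) x :=
    C.op_nonneg (fun y => sq_nonneg _) k x
  have : C.op k (fun y => (h y - C.op k h x) ^ 2) x
      = C.op k (fun y => h y ^ 2) x - (C.op k h x) ^ 2 := by
    have e : (fun y => (h y - C.op k h x) ^ 2)
        = fun y => 1 * (h y ^ 2 - 2 * C.op k h x * h y) + 1 * (C.op k h x) ^ 2 := by
      funext y; ring
    have e2 : (fun y => h y ^ 2 - 2 * C.op k h x * h y)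
        = fun y => 1 * h y ^ 2 + (-2 * C.op k h x) * h y := by funext y; ring
    rw [e, C.op_lin, e2, C.op_lin, C.op_const]
    ring
  linarith

lemma step_sq_le (h : S → ℝ) (x : S) : (C.step h x) ^ 2 ≤ C.step (fun y => h y ^ 2) x := by
  simpa [C.op_one] using C.op_sq_le 1 h x

lemma abs_op_le (k : ℕ) (h : S → ℝ) (x : S) : |C.op k h x| ≤ C.op k (fun y => |h y|) x := by
  refine (abs_sum_le_sum_abs _ _).trans_eq ?_
  exact sum_congr rfl fun y _ => by rw [abs_mul, abs_of_nonneg (C.pow_nonneg' k x y)]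

/-- triangle inequality along the chain -/
lemma tri_chain (h : S → ℝ) (x : S) : ∀ (t : ℕ) (ψ : S → ℝ), (∀ y, 0 ≤ ψ y) →
    C.op t (fun w => |h w - h x| * ψ w) x ≤
      ∑ j ∈ range t, C.op j (fun y => C.step
        (fun z => |h z - h y| * C.op (t - 1 - j) ψ z) y) x
  | 0, ψ, _ => by simp [C.op_zero]
  | t+1, ψ, hψ => by
    rw [C.op_succ, sum_range_succ]
    have hsp : ∀ y, C.step (fun w => |h w - h x| * ψ w) y
        ≤ 1 * (|h y - h x| * C.step ψ y) + 1 * C.step (fun z => |h z - h y| * ψ z) y := by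
      intro y
      simp only [step, mul_sum, ← sum_add_distrib]
      refine sum_le_sum fun z _ => ?_
      have htri : |h z - h x| ≤ |h y - h x| + |h z - h y| := by
        rw [add_comm]; exact abs_sub_le _ _ _
      have := mul_le_mul_of_nonneg_left htri (mul_nonneg (C.P_nonneg y z) (hψ z))
      linarith
    refine (C.op_mono hsp t x).trans ?_
    rw [C.op_lin, one_mul, one_mul]
    refine add_le_add ((tri_chain h x t (C.step ψ)
      (fun y => sum_nonneg fun z _ => mul_nonneg (C.P_nonneg y z) (hψ z))).trans_eq ?_) ?_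
    · refine sum_congr rfl fun j hj => ?_
      have hj' := mem_range.mp hj
      have e : t + 1 - 1 - j = (t - 1 - j) + 1 := by omega
      simp only [e, C.op_succ]
    · simp [C.op_zero]

end Chain

end Vale.Agent.P125
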