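import Vale.Agent.P125.Energy

/-! The drift estimate. -/

namespace Vale.Agent.P125

open Finset

namespace Chain

variable {S : Type*} [Fintype S] [DecidableEq S] (C : Chain S)

lemma ee_sum {ι : Type*} (s : Finset ι) (F : ι → S → S → ℝ) :
    C.ee (fun y z => ∑ i ∈ s, F i y z) = ∑ i ∈ s, C.ee (F i) := by
  simp only [ee, mul_sum]
  conv_lhs => arg 2; ext y; rw [sum_comm]
  exact sum_comm

lemma ee_nonneg {F : S → S → ℝ} (h : ∀ y z, 0 ≤ F y z) : 0 ≤ C.ee F :=
  sum_nonneg fun y _ => mul_nonneg (C.wt_nonneg y)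
    (sum_nonneg fun z _ => mul_nonneg (C.P_nonneg y z) (h y z))

lemma abs_ee_le (F : S → S → ℝ) : |C.ee F| ≤ C.ee (fun y z => |F y z|) := by
  have e : C.ee (fun y z => -1 * |F y z|) = -1 * C.ee (fun y z => |F y z|) := C.ee_mul _ _
  refine abs_le.mpr ⟨?_, C.ee_mono fun y z => le_abs_self _⟩
  have := C.ee_mono (F := fun y z => -1 * |F y z|) (G := F)
    (fun y z => by linarith [neg_abs_le (F y z)])
  linarith

lemma step_sub (h g : S → ℝ) (y : S) :
    C.step (fun z => h z - g z) y = C.step h y - C.step g y := by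
  simp [step, mul_sub, sum_sub_distrib]

lemma step_const (a : ℝ) (y : S) : C.step (fun _ => a) y = a := by
  simp [step, ← sum_mul, C.P_row]

lemma step_mul (a : ℝ) (h : S → ℝ) (y : S) :
    C.step (fun z => a * h z) y = a * C.step h y := by
  simp only [step, mul_sum]; exact sum_congr rfl fun z _ => by ring

noncomputable def drift (M : ℕ) (f w c : S → ℕ → ℝ) : ℝ :=
  ∑ r ∈ range (M+1), C.ee (fun y z => (f z r - f y r) * (w y r * c z r))

noncomputable def cost (M : ℕ) (f : S → ℕ → ℝ) : ℝ :=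
  C.ee (fun y z => tvar M (fun r => f z r - f y r) ^ 2)

lemma cost_nonneg (M : ℕ) (f : S → ℕ → ℝ) : 0 ≤ C.cost M f :=
  C.ee_nonneg fun _ _ => sq_nonneg _

set_option maxHeartbeats 400000 in
theorem key (M : ℕ) (f w c : S → ℕ → ℝ) (Cb Db : S → ℝ) (σ : ℝ) (hσ : 0 < σ) (hσ1 : σ ≤ 1)
    (hf : ∀ y, f y 0 = 0)
    (hw : ∀ y r, 0 ≤ w y r) (hmass : ∀ y, ∑ r ∈ range (M+1), w y r ≤ 1)
    (hwh : ∀ y, ∑ r ∈ range (M+1), |C.step (fun z => w z r) y - w y r| ≤ 2 * σ^8)
    (hc : ∀ y, ∀ r ∈ range (M+1), |c y r| ≤ Cb y)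
    (hch : ∀ y, ∀ r ∈ range (M+1), |C.step (fun z => c z r) y - c y r| ≤ Db y)
    (hCb : C.ex (fun y => Cb y ^ 2) ≤ C.cost M f)
    (hDb : C.ex (fun y => Db y ^ 2) ≤ 4 * σ^16 * C.cost M f) :
    |C.drift M f w c| ≤ 18 * σ * C.cost M f := by
  set R := range (M+1) with hR
  set W := C.cost M f with hW
  have hW0 : 0 ≤ W := C.cost_nonneg M f
  set V := fun y z => tvar M (fun r => f z r - f y r) with hV
  have hV0 : ∀ y z, 0 ≤ V y z := fun _ _ => tvar_nonneg _ _
  have hVd : ∀ y z, ∀ r ∈ R, |f z r - f y r| ≤ V y z := fun y z r hr => by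
    refine abs_le_tvar M (fun r => f z r - f y r) (by simp [hf]) ?_
    simp [hR] at hr; omega
  have hC0 : ∀ y, 0 ≤ Cb y := fun y => (abs_nonneg _).trans (hc y 0 (by simp [hR]))
  have hs : ∀ n : ℕ, 0 < σ ^ n := fun n => pow_pos hσ n
  have hle : ∀ {m n : ℕ}, m ≤ n → σ ^ n ≤ σ ^ m := fun h => pow_le_pow_of_le_one hσ.le hσ1 h
  -- energy of `c`
  have E1 : C.ee (fun y z => ∑ r ∈ R, (c z r - c y r) ^ 2 * w y r) ≤ 7 * σ^8 * W := by
    refine (C.energy M c w Cb Db (2*σ^8) (σ^8) (hs 8) hc hch hw hmass hwh).trans ?_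
    have h1 : (σ^8)⁻¹ * C.ex (fun y => Db y ^ 2) ≤ 4 * σ^8 * W := by
      rw [inv_mul_le_iff₀ (hs 8)]
      exact hDb.trans (le_of_eq (by ring))
    nlinarith [mul_le_mul_of_nonneg_left hCb (hs 8).le]
  set g := fun y r => c y r * w y r with hg
  set G := fun y i => suf M (g y) i with hG
  set Dh := fun y => C.step (fun z => ∑ r ∈ R, w z r * |c z r - c y r|) y + Cb y * (2*σ^8) with hDh
  have hGD : ∀ y i, |C.step (fun z => G z i) y - G y i| ≤ Dh y := by
    intro y i
    have e : C.step (fun z => G z i) y - G y i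
        = suf M (fun r => C.step (fun z => g z r) y - g y r) i := by
      rw [suf_sub]
      congr 1
      simp only [hG, suf, step, mul_sum]
      exact sum_comm
    rw [e]
    refine (abs_suf _ _ _).trans ?_
    have e2 : ∀ r, C.step (fun z => g z r) y - g y r
        = C.step (fun z => (c z r - c y r) * w z r) y
          + c y r * (C.step (fun z => w z r) y - w y r) := by
      intro r
      simp only [hg, sub_mul]
      rw [C.step_sub (fun z => c z r * w z r) (fun z => c y r * w z r), C.step_mul]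
      ring
    simp only [e2]
    refine (sum_le_sum fun r _ => abs_add_le _ _).trans ?_
    rw [sum_add_distrib]
    refine add_le_add ?_ ?_
    · simp only [step, mul_sum]
      rw [sum_comm (s := univ)]
      refine sum_le_sum fun r _ => (abs_sum_le_sum_abs _ _).trans (le_of_eq ?_)
      refine sum_congr rfl fun z _ => ?_
      rw [abs_mul, abs_mul, abs_of_nonneg (C.P_nonneg y z), abs_of_nonneg (hw z r)]
      ring
    · calc ∑ r ∈ R, |c y r * (C.step (fun z => w z r) y - w y r)|
          ≤ ∑ r ∈ R, Cb y * |C.step (fun z => w z r) y - w y r| := by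
            refine sum_le_sum fun r hr => ?_
            rw [abs_mul]; exact mul_le_mul_of_nonneg_right (hc y r hr) (abs_nonneg _)
        _ = Cb y * ∑ r ∈ R, |C.step (fun z => w z r) y - w y r| := by rw [mul_sum]
        _ ≤ _ := mul_le_mul_of_nonneg_left (hwh y) (hC0 y)
  have hDh2 : C.ex (fun y => Dh y ^ 2) ≤ 22 * σ^8 * W := by
    have hp : ∀ y, Dh y ^ 2 ≤ 2 * C.step (fun z => ∑ r ∈ R, (c z r - c y r) ^ 2 * w z r) y
        + 8 * σ^16 * Cb y ^ 2 := by
      intro y
      have h1 : (C.step (fun z => ∑ r ∈ R, w z r * |c z r - c y r|) y) ^ 2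
          ≤ C.step (fun z => ∑ r ∈ R, (c z r - c y r) ^ 2 * w z r) y := by
        refine (C.step_sq_le _ y).trans (C.step_mono (fun z => ?_) y)
        refine (weighted_jensen R (fun r => w z r) _ (fun r _ => hw z r) (hmass z)).trans
          (le_of_eq (sum_congr rfl fun r _ => by rw [sq_abs]; ring))
      have h2 : ∀ a b : ℝ, (a + b) ^ 2 ≤ 2 * a ^ 2 + 2 * b ^ 2 :=
        fun a b => by nlinarith [sq_nonneg (a - b)]
      refine (h2 _ _).trans ?_
      linear_combination 2 * h1
    refine (C.ex_mono hp).trans ?_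
    rw [C.ex_add, C.ex_mul, C.ex_mul]
    have e : C.ex (fun y => C.step (fun z => ∑ r ∈ R, (c z r - c y r) ^ 2 * w z r) y)
        = C.ee (fun y z => ∑ r ∈ R, (c z r - c y r) ^ 2 * w y r) := by
      rw [C.ee_symm (fun y z => ∑ r ∈ R, (c z r - c y r) ^ 2 * w y r)]
      refine congrArg C.ee (funext fun y => funext fun z => sum_congr rfl fun r _ => ?_)
      ring
    rw [e]
    have : σ^16 * C.ex (fun y => Cb y ^ 2) ≤ σ^8 * W :=
      (mul_le_mul_of_nonneg_left hCb (hs 16).le).trans
        (mul_le_mul_of_nonneg_right (hle (by norm_num)) hW0)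
    nlinarith
  have hGC : ∀ y i, |G y i| ≤ Cb y := by
    intro y i
    refine (abs_suf M (g y) i).trans ?_
    calc ∑ r ∈ R, |g y r| ≤ ∑ r ∈ R, Cb y * w y r := by
          refine sum_le_sum fun r hr => ?_
          rw [hg]; simp only [abs_mul, abs_of_nonneg (hw y r)]
          exact mul_le_mul_of_nonneg_right (hc y r hr) (hw y r)
      _ = Cb y * ∑ r ∈ R, w y r := by rw [mul_sum]
      _ ≤ _ := mul_le_of_le_one_right (hC0 y) (hmass y)
  have EG : ∀ u : ℕ → ℕ, C.ee (fun y z => ∑ r ∈ R, (G z (u r) - G y (u r)) ^ 2 * w y r)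
      ≤ 25 * σ^4 * W := by
    intro u
    refine (C.energy M (fun y r => G y (u r)) w Cb Dh (2*σ^8) (σ^4) (hs 4)
      (fun y r _ => hGC y _) (fun y r _ => hGD y _) hw hmass hwh).trans ?_
    have h1 : (σ^4)⁻¹ * C.ex (fun y => Dh y ^ 2) ≤ 22 * σ^4 * W := by
      rw [inv_mul_le_iff₀ (hs 4)]
      exact hDh2.trans (le_of_eq (by ring))
    nlinarith [mul_le_mul_of_nonneg_left hCb (hs 8).le, mul_le_mul_of_nonneg_left hCb (hs 4).le,
      mul_le_mul_of_nonneg_right (hle (show 4 ≤ 8 by norm_num)) hW0]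
  set X := fun y z r => |G z (r-1) - G y (r-1)| + |G z r - G y r| with hX
  set J := fun y z => ∑ r ∈ R, (Cb y * w y r + Cb z * w z r) * X y z r with hJdef
  have hJ : C.ee J ≤ 52 * σ^2 * W := by
    have e : C.ee J = 2 * C.ee (fun y z => ∑ r ∈ R, Cb y * w y r * X y z r) := by
      have : J = fun y z => (∑ r ∈ R, Cb y * w y r * X y z r)
          + ∑ r ∈ R, Cb z * w z r * X z y r := by
        funext y z
        rw [hJdef, ← sum_add_distrib]
        refine sum_congr rfl fun r _ => ?_
        simp only [hX, abs_sub_comm (G z (r-1)), abs_sub_comm (G z r)]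
        ring
      rw [this, C.ee_add, ← C.ee_symm (fun y z => ∑ r ∈ R, Cb y * w y r * X y z r)]
      ring
    rw [e, ← C.ee_mul]
    refine (C.ee_mono (G := fun y z => 2 * σ^2 * Cb y ^ 2
        + (σ^2)⁻¹ * ((∑ r ∈ R, (G z (r-1) - G y (r-1)) ^ 2 * w y r)
          + ∑ r ∈ R, (G z r - G y r) ^ 2 * w y r)) fun y z => ?_).trans ?_
    · have am : ∀ x : ℝ, 2 * (Cb y * |x|) ≤ σ^2 * Cb y ^ 2 + (σ^2)⁻¹ * x ^ 2 := by
        intro x
        have h0 : 0 ≤ (σ^2)⁻¹ * (σ^2 * Cb y - |x|) ^ 2 := by positivity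
        have : (σ^2)⁻¹ * (σ^2 * Cb y - |x|) ^ 2
            = σ^2 * Cb y ^ 2 - 2 * (Cb y * |x|) + (σ^2)⁻¹ * x ^ 2 := by
          rw [← sq_abs x]; field_simp; ring
        linarith
      calc 2 * ∑ r ∈ R, Cb y * w y r * X y z r
          ≤ ∑ r ∈ R, ((2 * σ^2 * Cb y ^ 2) * w y r
              + (σ^2)⁻¹ * ((G z (r-1) - G y (r-1)) ^ 2 * w y r
                + (G z r - G y r) ^ 2 * w y r)) := by
            rw [mul_sum]
            refine sum_le_sum fun r _ => ?_
            have := mul_le_mul_of_nonneg_left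
              (add_le_add (am (G z (r-1) - G y (r-1))) (am (G z r - G y r))) (hw y r)
            simp only [hX]
            linarith
        _ ≤ _ := by
            rw [sum_add_distrib, ← mul_sum, ← mul_sum, sum_add_distrib]
            exact add_le_add (mul_le_of_le_one_right (by positivity) (hmass y)) le_rfl
    · rw [C.ee_add, C.ee_fst, C.ex_mul, C.ee_mul, C.ee_add]
      have h1 := mul_le_mul_of_nonneg_left (add_le_add (EG (fun r => r - 1)) (EG (fun r => r)))
        (inv_nonneg.mpr (hs 2).le)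
      have h2 := mul_le_mul_of_nonneg_left hCb (mul_nonneg zero_le_two (hs 2).le)
      have h3 : (σ^2)⁻¹ * (25 * σ^4 * W + 25 * σ^4 * W) = 50 * σ^2 * W := by
        field_simp; ring
      linarith
  have hsup : ∀ y z i, |G z i - G y i| ≤ Real.sqrt (J y z) := by
    intro y z i
    apply Real.abs_le_sqrt
    rw [hG]; simp only
    rw [← suf_sub]
    refine (suf_sq M _ i).trans (sum_le_sum fun r hr => ?_)
    rw [suf_sub, suf_sub]
    refine mul_le_mul_of_nonneg_right ?_ (by positivity)
    refine (abs_sub _ _).trans ?_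
    simp only [hg, abs_mul, abs_of_nonneg (hw _ r)]
    linarith [mul_le_mul_of_nonneg_right (hc y r hr) (hw y r),
      mul_le_mul_of_nonneg_right (hc z r hr) (hw z r)]
  -- split the drift
  set A := ∑ r ∈ R, C.ee (fun y z => (f z r - f y r) * g y r) with hA
  set B := ∑ r ∈ R, C.ee (fun y z => (f z r - f y r) * (w y r * (c z r - c y r))) with hB
  have hsplit : C.drift M f w c = A + B := by
    rw [hA, hB, ← sum_add_distrib]
    refine sum_congr rfl fun r _ => ?_
    rw [← C.ee_add]
    exact congrArg C.ee (funext fun y => funext fun z => by simp only [hg]; ring)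
  have hBb : |B| ≤ 4 * σ^4 * W := by
    rw [hB, ← C.ee_sum]
    refine (C.abs_ee_le _).trans ?_
    refine (C.ee_mono (G := fun y z => (σ^4 / 2) * V y z ^ 2
        + (2 * σ^4)⁻¹ * ∑ r ∈ R, (c z r - c y r) ^ 2 * w y r) fun y z => ?_).trans ?_
    · refine (abs_sum_le_sum_abs _ _).trans ?_
      have : ∀ r ∈ R, |(f z r - f y r) * (w y r * (c z r - c y r))|
          ≤ (σ^4 / 2 * V y z ^ 2) * w y r + (2 * σ^4)⁻¹ * ((c z r - c y r) ^ 2 * w y r) := by
        intro r hr
        rw [abs_mul, abs_mul, abs_of_nonneg (hw y r)]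
        have h1 : |f z r - f y r| * |c z r - c y r|
            ≤ σ^4 / 2 * V y z ^ 2 + (2 * σ^4)⁻¹ * (c z r - c y r) ^ 2 := by
          refine (mul_le_mul_of_nonneg_right (hVd y z r hr) (abs_nonneg _)).trans ?_
          have h0 : 0 ≤ (2 * σ^4)⁻¹ * (σ^4 * V y z - |c z r - c y r|) ^ 2 := by positivity
          have : (2 * σ^4)⁻¹ * (σ^4 * V y z - |c z r - c y r|) ^ 2
              = σ^4 / 2 * V y z ^ 2 - V y z * |c z r - c y r|
                + (2 * σ^4)⁻¹ * (c z r - c y r) ^ 2 := by
            rw [← sq_abs (c z r - c y r)]; field_simp; ring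
          linarith
        linarith [mul_le_mul_of_nonneg_left h1 (hw y r)]
      refine (sum_le_sum this).trans ?_
      rw [sum_add_distrib, ← mul_sum, ← mul_sum]
      exact add_le_add (mul_le_of_le_one_right (by positivity) (hmass y)) le_rfl
    · rw [C.ee_add, C.ee_mul, C.ee_mul]
      have h1 := mul_le_mul_of_nonneg_left E1 (inv_nonneg.mpr (mul_nonneg zero_le_two (hs 4).le))
      have h2 : (2 * σ^4)⁻¹ * (7 * σ^8 * W) = 7/2 * σ^4 * W := by field_simp
      have h3 : C.ee (fun y z => V y z ^ 2) = W := rfl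
      rw [h3]
      linarith
  have hAb : |A| ≤ 14 * σ * W := by
    have e2 : 2 * A = C.ee (fun y z => ∑ r ∈ R, (f z r - f y r) * (g y r - g z r)) := by
      rw [C.ee_sum, hA, mul_sum]
      refine sum_congr rfl fun r _ => ?_
      simp only [mul_sub]
      rw [C.ee_sub, C.ee_symm (fun y z => (f z r - f y r) * g z r)]
      have : C.ee (fun y z => (f y r - f z r) * g y r)
          = -1 * C.ee (fun y z => (f z r - f y r) * g y r) := by
        rw [← C.ee_mul]; exact congrArg C.ee (funext fun y => funext fun z => by ring)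
      rw [this]; ring
    have h2A : |2 * A| ≤ 28 * σ * W := by
      rw [e2]
      refine (C.abs_ee_le _).trans ?_
      refine (C.ee_mono (G := fun y z => (σ/2) * V y z ^ 2 + (2*σ)⁻¹ * J y z)
        fun y z => ?_).trans ?_
      · rw [abel M (fun r => f z r - f y r) _ (by simp [hf])]
        refine (abs_sum_le_sum_abs _ _).trans ?_
        refine (sum_le_sum (g := fun i => |(f z (i+1) - f y (i+1)) - (f z i - f y i)|
          * Real.sqrt (J y z)) fun i _ => ?_).trans ?_
        · rw [abs_mul]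
          refine mul_le_mul_of_nonneg_left ?_ (abs_nonneg _)
          rw [suf_sub, abs_sub_comm]
          exact hsup y z i
        · rw [← sum_mul]
          change V y z * Real.sqrt (J y z) ≤ _
          have hJ0 : 0 ≤ J y z := sum_nonneg fun r _ => mul_nonneg
            (add_nonneg (mul_nonneg (hC0 y) (hw y r)) (mul_nonneg (hC0 z) (hw z r)))
            (by positivity)
          have h0 : 0 ≤ (2*σ)⁻¹ * (σ * V y z - Real.sqrt (J y z)) ^ 2 := by positivity
          have : (2*σ)⁻¹ * (σ * V y z - Real.sqrt (J y z)) ^ 2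
              = σ/2 * V y z ^ 2 - V y z * Real.sqrt (J y z) + (2*σ)⁻¹ * J y z := by
            have hq := Real.sq_sqrt hJ0
            field_simp
            linear_combination hq
          linarith
      · rw [C.ee_add, C.ee_mul, C.ee_mul]
        have h1 := mul_le_mul_of_nonneg_left hJ (inv_nonneg.mpr (mul_nonneg zero_le_two hσ.le))
        have h2 : (2*σ)⁻¹ * (52 * σ^2 * W) = 26 * σ * W := by field_simp; ring
        have h3 : C.ee (fun y z => V y z ^ 2) = W := rfl
        rw [h3]
        nlinarith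
    rw [abs_mul, abs_two] at h2A
    linarith
  rw [hsplit]
  refine (abs_add_le A B).trans ?_
  have : σ^4 * W ≤ σ * W :=
    mul_le_mul_of_nonneg_right (by simpa using hle (show 1 ≤ 4 by norm_num)) hW0
  linarith

end Chain

end Vale.Agent.P125
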