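import Vale.Agent.P125.Displace

/-! The summing operator from l1 to l-infinity. -/

namespace Vale.Agent.P125

open Finset
open scoped ENNReal

lemma prefix_le (x : lp (fun _ : ℕ => ℝ) 1) (s : Finset ℕ) : ∑ i ∈ s, |x i| ≤ ‖x‖ := by
  have := lp.sum_rpow_le_norm_rpow (p := 1) (by norm_num) x s
  simpa [Real.norm_eq_abs] using this

lemma psum_memℓp (x : lp (fun _ : ℕ => ℝ) 1) :
    Memℓp (fun m => ∑ i ∈ range m, x i) ⊤ := by
  refine memℓp_infty ⟨‖x‖, ?_⟩
  rintro _ ⟨m, rfl⟩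
  exact (abs_sum_le_sum_abs _ _).trans (prefix_le x _)

/-- the summing operator -/
noncomputable def sumOp : lp (fun _ : ℕ => ℝ) 1 →L[ℝ] lp (fun _ : ℕ => ℝ) ⊤ :=
  LinearMap.mkContinuous
    { toFun := fun x => ⟨fun m => ∑ i ∈ range m, x i, psum_memℓp x⟩
      map_add' := fun x y => lp.ext (funext fun m => by simp only [lp.coeFn_add, Pi.add_apply, sum_add_distrib])
      map_smul' := fun a x => lp.ext (funext fun m => by simp [mul_sum]) }
    1 (fun x => by
      rw [one_mul]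
      exact lp.norm_le_of_forall_le (norm_nonneg _) fun m =>
        (abs_sum_le_sum_abs (fun i => x i) (range m)).trans (prefix_le x _))

lemma sumOp_apply (x : lp (fun _ : ℕ => ℝ) 1) (m : ℕ) :
    sumOp x m = ∑ i ∈ range m, x i := rfl

lemma sumOp_sq (x : lp (fun _ : ℕ => ℝ) 1) :
    Filter.Tendsto (fun M => (range (M+1)).sup' ⟨0, by simp⟩
      (fun r => (∑ i ∈ range r, x i) ^ 2)) Filter.atTop (nhds (‖sumOp x‖ ^ 2)) := by
  refine tendsto_atTop_isLUB (fun M N h => Finset.sup'_mono _ ?_ _) ⟨?_, ?_⟩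
  · exact range_subset_range.mpr (by omega)
  · rintro _ ⟨M, rfl⟩
    refine Finset.sup'_le _ _ fun r _ => ?_
    refine sq_le_sq.mpr ?_
    rw [abs_norm]
    exact lp.norm_apply_le_norm ENNReal.top_ne_zero (sumOp x) r
  · intro u hu
    have hb : ∀ r, (∑ i ∈ range r, x i) ^ 2 ≤ u := fun r =>
      le_trans (Finset.le_sup' (fun r => (∑ i ∈ range r, x i) ^ 2)
        (self_mem_range_succ r)) (hu ⟨r, rfl⟩)
    have hu0 : 0 ≤ u := (sq_nonneg _).trans (hb 0)
    have : ‖sumOp x‖ ≤ Real.sqrt u :=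
      lp.norm_le_of_forall_le (Real.sqrt_nonneg _) fun r => Real.abs_le_sqrt (hb r)
    calc ‖sumOp x‖ ^ 2 ≤ Real.sqrt u ^ 2 := pow_le_pow_left₀ (norm_nonneg _) this 2
      _ = u := Real.sq_sqrt hu0

theorem sumOp_markov {S : Type*} [Fintype S] [DecidableEq S] (C : Chain S)
    (f : S → lp (fun _ : ℕ => ℝ) 1) (t : ℕ) (ht : 1 ≤ t) :
    C.ex (fun x => C.op t (fun w => ‖sumOp (f w) - sumOp (f x)‖ ^ 2) x)
      ≤ 38 * (t:ℝ) ^ (2 - 1/18 : ℝ) * C.ee (fun y z => ‖f z - f y‖ ^ 2) := by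
  have ht' : (1:ℝ) ≤ t := by exact_mod_cast ht
  set p : ℝ := (t:ℝ) ^ (1/18 : ℝ) with hp
  have hp1 : 1 ≤ p := Real.one_le_rpow ht' (by norm_num)
  have hp0 : 0 < p := by linarith
  have hp18 : p ^ 18 = t := by
    rw [hp, ← Real.rpow_natCast, ← Real.rpow_mul (by linarith)]; norm_num
  set j : ℕ := ⌊p ^ 2⌋₊ with hjdef
  have hj : 0 < j := Nat.floor_pos.mpr (one_le_pow₀ hp1)
  have hjl : (j:ℝ) ≤ p ^ 2 := Nat.floor_le (by positivity)
  have hju : p ^ 2 ≤ 2 * j := by
    have h1 : p ^ 2 < j + 1 := Nat.lt_floor_add_one _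
    have h2 : (1:ℝ) ≤ j := by exact_mod_cast hj
    linarith
  have hq : 5 * (j:ℝ)^8 / t + 36 * (1/(j:ℝ)) ≤ (9 / p) ^ 2 := by
    have hj0 : (0:ℝ) < j := by exact_mod_cast hj
    have h1 : 5 * (j:ℝ)^8 / t ≤ 5 / p ^ 2 := by
      rw [div_le_div_iff₀ (by linarith) (by positivity), ← hp18]
      have := mul_le_mul_of_nonneg_right (pow_le_pow_left₀ hj0.le hjl 8) (sq_nonneg p)
      linarith [show (p ^ 2) ^ 8 * p ^ 2 = p ^ 18 by ring]
    have h2 : 36 * (1/(j:ℝ)) ≤ 72 / p ^ 2 := by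
      rw [mul_one_div, div_le_div_iff₀ hj0 (by positivity)]; linarith
    have h3 : 5 / p ^ 2 + 72 / p ^ 2 ≤ (9 / p) ^ 2 := by
      rw [← add_div, div_pow]; gcongr; norm_num
    linarith
  set W := C.ee (fun y z => ‖f z - f y‖ ^ 2) with hW
  have hW0 : 0 ≤ W := C.ee_nonneg fun _ _ => sq_nonneg _
  have hM : ∀ M, C.ex (fun x => C.op t (fun w => (range (M+1)).sup' ⟨0, by simp⟩
      (fun r => (∑ i ∈ range r, (f w - f x) i) ^ 2)) x) ≤ 38 * (t:ℝ) ^ (2 - 1/18 : ℝ) * W := by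
    intro M
    have h := C.displacement M (fun y r => ∑ i ∈ range r, f y i) (fun y => by simp) t j hj ht
      (9 / p) (by positivity) hq
    have hc : C.cost M (fun y r => ∑ i ∈ range r, f y i) ≤ W := by
      refine C.ee_mono fun y z => pow_le_pow_left₀ (tvar_nonneg _ _) ?_ 2
      refine le_of_eq_of_le (sum_congr rfl fun i _ => ?_) (prefix_le (f z - f y) _)
      simp [sum_range_succ]; ring_nf
    simp only [lp.coeFn_sub, Pi.sub_apply, sum_sub_distrib]
    refine h.trans ((mul_le_mul_of_nonneg_left hc (by positivity)).trans ?_)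
    refine mul_le_mul_of_nonneg_right ?_ hW0
    have e : (t:ℝ) ^ (2 - 1/18 : ℝ) = t ^ 2 / p := by
      rw [Real.rpow_sub (by linarith), hp]; norm_num
    rw [e]
    have h2 : 2 * p ≤ 2 * (t:ℝ) := by
      rw [← hp18]; exact mul_le_mul_of_nonneg_left (le_self_pow₀ hp1 (by norm_num)) zero_le_two
    rw [show 38 * ((t:ℝ) ^ 2 / p) = 38 * (t:ℝ) ^ 2 / p by ring, le_div_iff₀ hp0]
    have e2 : (4 * (t:ℝ) * (9/p) + 2) * t * p = 36 * t^2 + 2 * t * p := by field_simp; ring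
    rw [e2]; nlinarith
  refine le_of_tendsto' (x := Filter.atTop) ?_ hM
  simp only [← map_sub, Chain.ex, Chain.op]
  exact tendsto_finsetSum _ fun x _ => Filter.Tendsto.const_mul _
    (tendsto_finsetSum _ fun w _ => Filter.Tendsto.const_mul _ (sumOp_sq _))

theorem sumOp_not_uniformConvex (X : Type*) [NormedAddCommGroup X] [NormedSpace ℝ X]
    [UniformConvexSpace X] (A : lp (fun _ : ℕ => ℝ) 1 →L[ℝ] X)
    (B : X →L[ℝ] lp (fun _ : ℕ => ℝ) ⊤) : B.comp A ≠ sumOp := by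
  intro h
  set u : ℕ → ℕ → lp (fun _ : ℕ => ℝ) 1 :=
    fun a j => ((1:ℝ)/2) ^ j • ∑ i ∈ Ico a (a + 2^j), lp.single 1 i (1:ℝ) with hu
  have hval : ∀ a j m, sumOp (u a j) m
      = ((1:ℝ)/2) ^ j * ∑ i ∈ Ico a (a + 2^j), (if i < m then (1:ℝ) else 0) := by
    intro a j m
    rw [sumOp_apply]
    simp only [hu, lp.coeFn_smul, Pi.smul_apply, smul_eq_mul, lp.coeFn_sum, Finset.sum_apply,
      lp.single_apply, Pi.single_apply]
    rw [← mul_sum, sum_comm]
    congr 1
    refine sum_congr rfl fun i _ => ?_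
    simp
  set R : ℝ := ‖A‖ + 1 with hR
  set c : ℝ := 1 / (‖B‖ + 1) with hc
  have hR0 : 0 < R := by positivity
  have hc0 : 0 < c := by positivity
  have hlow : ∀ z m, sumOp z m ≥ 1 → c ≤ ‖A z‖ := by
    intro z m hz
    rw [← h, ContinuousLinearMap.comp_apply] at hz
    have h1 : (1:ℝ) ≤ ‖B‖ * ‖A z‖ :=
      hz.trans ((le_abs_self _).trans
        ((lp.norm_apply_le_norm ENNReal.top_ne_zero (B (A z)) m).trans (B.le_opNorm _)))
    rw [hc, div_le_iff₀ (by positivity)]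
    nlinarith [norm_nonneg (A z)]
  obtain ⟨δ, hδ, hδs⟩ := exists_forall_closed_ball_dist_add_le_two_sub X (div_pos hc0 hR0)
  set δ' : ℝ := min (δ/2) (1/2) with hδ'
  have hd0 : 0 < δ' := lt_min (by linarith) (by norm_num)
  have hd1 : δ' ≤ 1/2 := min_le_right _ _
  have hd2 : δ' ≤ δ/2 := min_le_left _ _
  have hshrink : ∀ j a, ‖A (u a j)‖ ≤ R * (1 - δ') ^ j := by
    intro j
    induction j with
    | zero =>
      intro a
      refine (A.le_opNorm _).trans ?_
      have : ‖u a 0‖ = 1 := by simp [hu, lp.norm_single]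
      rw [this, mul_one, pow_zero, mul_one, hR]; linarith
    | succ j ih =>
      intro a
      set r : ℝ := R * (1 - δ') ^ j with hr
      have hr0 : 0 < r := mul_pos hR0 (pow_pos (by linarith) j)
      have hrR : r ≤ R := mul_le_of_le_one_right hR0.le (pow_le_one₀ (by linarith) (by linarith))
      have e : u a (j+1) = (1/2 : ℝ) • (u a j + u (a + 2^j) j) := by
        have e2 : Ico a (a + 2^(j+1)) = Ico a (a + 2^j) ∪ Ico (a + 2^j) (a + 2^j + 2^j) := by
          rw [Ico_union_Ico_eq_Ico (Nat.le_add_right _ _) (Nat.le_add_right _ _)]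
          congr 1; rw [pow_succ]; omega
        simp only [hu, e2, sum_union (Ico_disjoint_Ico_consecutive _ _ _)]
        rw [← smul_add, smul_smul, pow_succ, mul_comm]
      have hsep : c ≤ ‖A (u a j) - A (u (a + 2^j) j)‖ := by
        rw [← map_sub]
        refine hlow _ (a + 2^j) (le_of_eq ?_)
        rw [map_sub, lp.coeFn_sub, Pi.sub_apply, hval, hval]
        rw [sum_congr rfl (g := fun _ => (1:ℝ)) (fun i hi => if_pos (mem_Ico.mp hi).2),
          sum_congr rfl (g := fun _ => (0:ℝ))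
            (fun i hi => if_neg (not_lt.mpr (mem_Ico.mp hi).1))]
        simp [div_pow]
      have hx : ∀ b, ‖r⁻¹ • A (u b j)‖ ≤ 1 := fun b => by
        rw [norm_smul, norm_inv, Real.norm_of_nonneg hr0.le, inv_mul_le_iff₀ hr0, mul_one]
        exact ih b
      have hd := hδs (hx a) (hx (a + 2^j)) (by
        rw [← smul_sub, norm_smul, norm_inv, Real.norm_of_nonneg hr0.le, le_inv_mul_iff₀ hr0]
        refine le_trans ?_ hsep
        rw [← mul_div_assoc, div_le_iff₀ hR0, mul_comm c R]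
        exact mul_le_mul_of_nonneg_right hrR hc0.le)
      rw [← smul_add, norm_smul, norm_inv, Real.norm_of_nonneg hr0.le, inv_mul_le_iff₀ hr0] at hd
      rw [e, map_smul, map_add, norm_smul, Real.norm_of_nonneg (by norm_num : (0:ℝ) ≤ 1/2)]
      calc 1/2 * ‖A (u a j) + A (u (a + 2^j) j)‖ ≤ 1/2 * (r * (2 - δ)) := by gcongr
        _ ≤ r * (1 - δ') := by nlinarith
        _ = _ := by rw [hr, pow_succ]; ring
  obtain ⟨j, hj⟩ := exists_pow_lt_of_lt_one (div_pos hc0 hR0) (by linarith : 1 - δ' < 1)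
  have h1 : c ≤ ‖A (u 0 j)‖ := by
    refine hlow _ (2^j) (le_of_eq ?_)
    rw [hval, sum_congr rfl (g := fun _ => (1:ℝ))
      (fun i hi => if_pos (by simpa using (mem_Ico.mp hi).2))]
    simp [div_pow]
  rw [lt_div_iff₀ hR0] at hj
  linarith [hshrink j 0]

end Vale.Agent.P125
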